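import Vale.Agent.P194.Graph

/-! A matrix over a group algebra with a left inverse and a nonzero kernel. -/

namespace Vale.Agent.P194

open Function MonoidAlgebra

section theta
variable {K S V G : Type} [Field K] [Fintype S] [DecidableEq S] [Group G]

/-- the matrix -/
noncomputable def Theta (P : (S → K) →ₗ[K] (S → K)) (γ : S → G) :
    Matrix S S (MonoidAlgebra K G) := fun s' s =>
  single 1 (P (Pi.single s' 1) s) +
    single (γ s)⁻¹ ((Pi.single s' 1 : S → K) s - P (Pi.single s' 1) s)

theorem vecMul_Theta (P : (S → K) →ₗ[K] (S → K)) (γ : S → G) (g : G) (v : S → K) (s : S) :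
    Matrix.vecMul (fun s => single g (v s)) (Theta P γ) s =
      single g (P v s) + single (g * (γ s)⁻¹) (v s - P v s) := by
  have e1 : P v s = ∑ s', v s' * P (Pi.single s' 1) s := by
    conv_lhs => rw [pi_eq_sum_univ' v, map_sum]
    simp
  have e2 : v s = ∑ s', v s' * (Pi.single s' 1 : S → K) s := by
    simp [Pi.single_apply]
  have e3 : ∀ (x : G) (f : S → K), single x (∑ s', f s') = ∑ s', single x (f s') :=
    fun x f => map_sum (singleAddHom x) f _
  rw [e1]
  conv_rhs => rw [e2, ← Finset.sum_sub_distrib, e3, e3, ← Finset.sum_add_distrib]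
  simp only [Matrix.vecMul, dotProduct, Theta, mul_add, single_mul_single, mul_one, mul_sub]

theorem eta_Theta [Fintype V] {Step : V → S × Bool → V → Prop}
    (sym : ∀ v a v', Step v a v' → Step v' (linv a) v)
    (det : ∀ v a v' v'', Step v a v' → Step v a v'' → v' = v'')
    (γ : S × Bool → G) (f : V → G)
    (hf : ∀ v a v', Step v a v' → f v' = f v * γ a) (P : (S → K) →ₗ[K] (S → K))
    (side : V → Bool) (star e : V → S → K)
    (h1 : ∀ v a v', Step v a v' → side v = a.2 ∧ side v' = !a.2 ∧ star v' a.1 = star v a.1)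
    (h2 : ∀ v s, star v s ≠ 0 → ∃ v', Step v (s, side v) v')
    (h3 : ∀ v, side v = false → P (star v) = 0)
    (h4 : ∀ v, side v = true → P (star v - e v) = star v - e v)
    (C : Finset V) (hC : ∀ v ∈ C, ∀ a v', Step v a v' → v' ∈ C) :
    Matrix.vecMul (∑ v ∈ C, fun s => single (f v)
        ((if side v then star v - e v else -star v) s)) (Theta P (fun s => γ (s, true))) =
      fun s => -∑ v ∈ C, if side v then single (f v) (e v s) else 0 := by
  classical
  ext1 s
  rw [Matrix.sum_vecMul, Finset.sum_apply]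
  simp only [vecMul_Theta]
  let F : V → MonoidAlgebra K G := fun v =>
    if side v then single (f v) (star v s) else -single (f v * (γ (s, true))⁻¹) (star v s)
  have e1 : ∀ v, single (f v) (P (if side v then star v - e v else -star v) s) +
      single (f v * (γ (s, true))⁻¹) ((if side v then star v - e v else -star v) s -
        P (if side v then star v - e v else -star v) s) =
      F v - if side v then single (f v) (e v s) else 0 := by
    intro v
    cases hv : side v
    · simp [F, hv, h3 v hv, single_neg]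
    · simp [F, hv, h4 v hv, single_sub, -map_sub]
  simp only [e1, Finset.sum_sub_distrib]
  suffices ∑ v ∈ C, F v = 0 by rw [this, zero_sub]
  let nb : V → V := fun v => if h : star v s ≠ 0 then (h2 v s h).choose else v
  have n1 : ∀ v, star v s ≠ 0 → Step v (s, side v) (nb v) := fun v h => by
    simp only [nb, dif_pos h]; exact (h2 v s h).choose_spec
  have n2 : ∀ v, star v s = 0 → nb v = v := fun v h => by simp [nb, h]
  refine Finset.sum_involution (fun v _ => nb v) (fun v _ => ?_) (fun v _ hv => ?_)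
    (fun v hv => ?_) (fun v _ => ?_)
  · by_cases c : star v s = 0
    · simp [n2 v c, F, c]
    · have a := n1 v c
      obtain ⟨-, a2, a3⟩ := h1 _ _ _ a
      dsimp only at a2 a3
      cases hv : side v
      · rw [hv] at a a2
        have := hf _ _ _ (sym _ _ _ a)
        simp [F, hv, a2, a3, this, linv]
      · rw [hv] at a a2
        have := hf _ _ _ a
        simp [F, hv, a2, a3, this]
  · have c : star v s ≠ 0 := fun c => hv (by simp [F, c])
    intro hc
    have := (h1 _ _ _ (n1 v c)).2.1
    rw [hc] at this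
    simp at this
  · by_cases c : star v s = 0
    · rwa [n2 v c]
    · exact hC v hv _ _ (n1 v c)
  · by_cases c : star v s = 0
    · rw [n2 v c, n2 v c]
    · have a := n1 v c
      obtain ⟨-, a2, a3⟩ := h1 _ _ _ a
      have b := n1 (nb v) (a3 ▸ c)
      rw [a2] at b
      exact det _ _ _ _ b (sym _ _ _ a)

theorem theta_main [Fintype V] [Nonempty S] {Step : V → S × Bool → V → Prop} {g : ℕ}
    (H : SCHyp Step g) (hg : 36 ≤ g) (P : (S → K) →ₗ[K] (S → K))
    (side : V → Bool) (star e : V → S → K)
    (h1 : ∀ v a v', Step v a v' → side v = a.2 ∧ side v' = !a.2 ∧ star v' a.1 = star v a.1)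
    (h2 : ∀ v s, star v s ≠ 0 → ∃ v', Step v (s, side v) v')
    (h3 : ∀ v, side v = false → P (star v) = 0)
    (h4 : ∀ v, side v = true → P (star v - e v) = star v - e v)
    (h5 : ∀ b, ∃ v₀, side v₀ = true ∧ e v₀ = Pi.single b 1 ∧
      ∀ u v, Wk Step v₀ u v → side v = true → v ≠ v₀ → e v = 0)
    (h6 : ∃ v₀, star v₀ ≠ 0 ∧ ∀ u v, Wk Step v₀ u v → e v = 0) :
    ∃ (Z Θ : Matrix S S (MonoidAlgebra K (Gp Step))) (η : S → MonoidAlgebra K (Gp Step)),
      Z * Θ = 1 ∧ η ≠ 0 ∧ Matrix.vecMul η Θ = 0 := by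
  classical
  obtain ⟨f, hf, hf'⟩ := exists_dev H hg
  let C : V → Finset V := fun v₀ => Finset.univ.filter (fun v => ∃ u, Wk Step v₀ u v)
  have mC : ∀ v₀ v, v ∈ C v₀ ↔ ∃ u, Wk Step v₀ u v := fun v₀ v => by simp [C]
  have key := fun v₀ => eta_Theta H.sym H.det (gen Step) f hf P side star e h1 h2 h3 h4 (C v₀)
    (fun v hv a v' h => by
      obtain ⟨u, hu⟩ := (mC _ _).1 hv
      exact (mC _ _).2 ⟨_, hu.append (.cons h (.nil _))⟩)
  choose vb hb1 hb2 hb3 using h5
  obtain ⟨v₀, a1, a2⟩ := h6
  refine ⟨fun b => (-single (f (vb b))⁻¹ (1 : K)) • ∑ v ∈ C (vb b), fun s => single (f v)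
        ((if side v then star v - e v else -star v) s), _, _, ?_, ?_, (key v₀).trans ?_⟩
  · ext1 b s
    change Matrix.vecMul (_ • _) _ s = _
    rw [Matrix.smul_vecMul, key, Pi.smul_apply, Finset.sum_eq_single (vb b)]
    · simp only [hb1, hb2, if_true, smul_eq_mul, neg_mul_neg, single_mul_single, inv_mul_cancel,
        one_mul, Matrix.one_apply, Pi.single_apply]
      by_cases c : b = s
      · simp [c, one_def]
      · simp [c, Ne.symm c]
    · intro v hv hne
      obtain ⟨u, hu⟩ := (mC _ _).1 hv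
      split_ifs with c
      · simp [hb3 b u v hu c hne]
      · rfl
    · intro h; exact absurd ((mC _ _).2 ⟨[], .nil _⟩) h
  · intro hc
    obtain ⟨s, hs⟩ := Function.ne_iff.1 a1
    have := congrArg (fun x => x.coeff (f v₀)) (congrFun hc s)
    simp only [Finset.sum_apply, coeff_sum, Finsupp.finsetSum_apply, coeff_single] at this
    rw [Finset.sum_eq_single v₀] at this
    · apply hs
      split_ifs at this
      · simpa [a2 [] v₀ (.nil _)] using this
      · simpa using this
    · intro v hv hne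
      obtain ⟨u, hu⟩ := (mC _ _).1 hv
      exact Finsupp.single_eq_of_ne (fun h => hne (hf' _ _ _ hu h).symm)
    · intro h; exact absurd ((mC _ _).2 ⟨[], .nil _⟩) h
  · ext1 s
    rw [Finset.sum_eq_zero, neg_zero, Pi.zero_apply]
    intro v hv
    obtain ⟨u, hu⟩ := (mC _ _).1 hv
    simp [a2 u v hu]

end theta

theorem Data.wk_comp {K : Type} [Field K] [DecidableEq K] {m g : ℕ} {Γ : Data K m g}
    {v v' : Γ.V} {u} (h : Wk Γ.Step v u v') : v'.2.1 = v.2.1 := by
  induction h with
  | nil v => rfl
  | cons hs _ ih => exact ih.trans hs.props.2.2.1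

theorem core (p : ℕ) [Fact p.Prime] (g : ℕ) (hg : 36 ≤ g) :
    ∃ (K : Type) (_ : Field K) (_ : Fintype K) (_ : CharP K p) (ω : K) (S V : Type)
      (_ : Fintype S) (_ : DecidableEq S) (_ : Nonempty S) (_ : Fintype V)
      (Step : V → S × Bool → V → Prop),
      ω ≠ 0 ∧ ω ≠ 1 ∧ SCHyp Step g ∧
      ∃ (Z Θ : Matrix S S (MonoidAlgebra K (Gp Step))) (η : S → MonoidAlgebra K (Gp Step)),
        Z * Θ = 1 ∧ η ≠ 0 ∧ Matrix.vecMul η Θ = 0 := by
  classical
  have hp : 1 < p := (Fact.out : p.Prime).one_lt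
  obtain ⟨n, hn⟩ : ∃ n, n = (g + 2) * (g + 2) := ⟨_, rfl⟩
  obtain ⟨m, hm⟩ : ∃ m, m = 2 * n + 4 := ⟨_, rfl⟩
  have hJ : m + 1 ≤ p ^ (m + 1) := (Nat.lt_pow_self hp).le
  have hQ : 1 < p ^ (m + 1) := Nat.one_lt_pow (by omega) hp
  obtain ⟨k, hk⟩ : ∃ k, (p ^ (m + 1)) ^ (m + 1) ≤ k := ⟨_, le_rfl⟩
  let K := GaloisField p ((m + 1) * (k + 1))
  letI : Fintype K := Fintype.ofFinite K
  have hK : Fintype.card K = (p ^ (m + 1)) ^ (k + 1) := by
    rw [← pow_mul, ← Nat.card_eq_fintype_card, GaloisField.card p _ (by positivity)]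
  have hK2 : 2 < Fintype.card K := by
    rw [hK]
    calc 2 < m + 1 := by omega
      _ ≤ p ^ (m + 1) := hJ
      _ ≤ _ := Nat.le_self_pow (by omega) _
  obtain ⟨ω, ω0, ω1⟩ : ∃ ω : K, ω ≠ 0 ∧ ω ≠ 1 := by
    by_contra hc
    push Not at hc
    have : (Finset.univ : Finset K) ⊆ {0, 1} := fun x _ => by
      by_cases c : x = 0 <;> simp [c, hc]
    have := (Finset.card_le_card this).trans Finset.card_le_two
    rw [Finset.card_univ] at this
    omega
  obtain ⟨R, hR, hR'⟩ := small_code hK hJ hQ (by omega)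
  obtain ⟨P, ι, c, c0, P1, P2, P3⟩ := split_code R hR ω ω0 ω1
  obtain ⟨U, _, _, x, hU, x1, x2⟩ := exists_free K g
  rw [← hn] at hU
  obtain ⟨β⟩ : Nonempty (Option (K × (Fin m → K)) ↪ (Fin (n + 3) → K) × (Fin (n + 3) → K)) := by
    apply Function.Embedding.nonempty_of_card_le
    simp only [Fintype.card_option, Fintype.card_prod, Fintype.card_fun, Fintype.card_fin]
    rw [← pow_add, ← pow_succ', show n + 3 + (n + 3) = m + 1 + 1 by omega]
    exact Nat.pow_lt_pow_succ (by omega)
  obtain ⟨dir⟩ : Nonempty ((Fin (n + 3) → K) × U × K ↪ (Fin m → K)) := by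
    apply Function.Embedding.nonempty_of_card_le
    simp only [Fintype.card_prod, Fintype.card_fun, Fintype.card_fin]
    rw [show m = (n + 3) + (n + 1) by omega, pow_add _ (n + 3), pow_succ _ n]
    gcongr
  let ε : Option (K × (Fin m → K)) → K × (Fin m → K) → K := fun b =>
    Option.elim b 0 (fun s => Pi.single s 1)
  let Γ : Data K m g :=
    { U := U
      H := Fin (n + 3) → K
      x := x
      x_add := x1
      free := x2
      β := fun b s => if s then (β b).1 else (β b).2
      β_inj := fun b b' s h1 h2 => by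
        apply β.injective
        cases s
        · exact Prod.ext h2 h1
        · exact Prod.ext h1 h2
      dir := dir
      dir_inj := dir.injective
      κ := fun s => if s then 1 else ι
      lam := fun s => if s then 1 else c
      lam_ne := fun s t => by cases s <;> simp [c0]
      w := fun b => ε b - P (ε b) }
  have H := Γ.sc (by omega)
  refine ⟨K, inferInstance, inferInstance, inferInstance, ω, K × (Fin m → K), Γ.V, inferInstance,
    inferInstance, inferInstance, inferInstance, Γ.Step, ω0, ω1, H, ?_⟩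
  refine theta_main H hg P Prod.fst Γ.star (fun v => if v.2.2 = none then ε v.2.1 else 0)
    (fun v a v' h => ⟨h.props.1, h.props.2.1, h.props.2.2.2.2.2.2.1⟩) (fun v s h => Data.bal h)
    ?_ ?_ ?_ ?_
  · rintro ⟨_, b, _ | ⟨i, a, y⟩⟩ rfl
    · change P (ε b - P (ε b)) = 0
      rw [map_sub, P1, sub_self]
    · change P (a • fun s => c s * line y _ (ι s)) = 0
      rw [map_smul, P3 _ (hR' _ _), smul_zero]
  · rintro ⟨_, b, _ | ⟨i, a, y⟩⟩ rfl
    · change P (ε b - P (ε b) - ε b) = ε b - P (ε b) - ε b
      rw [sub_sub_cancel_left, map_neg, P1]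
    · have : Γ.star (true, b, some (i, a, y)) = a • line y (Γ.dir (Γ.β b true, i, a)) := by
        ext s; simp [Data.star, Γ]
      simp only [this, reduceCtorEq, if_false, sub_zero, map_smul, P2 _ (hR' _ _)]
  · intro b
    refine ⟨(true, some b, none), rfl, rfl, ?_⟩
    rintro u ⟨_, b', o⟩ hu rfl hne
    obtain rfl : b' = some b := Data.wk_comp hu
    rw [if_neg (fun h => hne (by dsimp only at h; rw [h]))]
  · refine ⟨(true, none, some (1, 1, 0)), fun h => ?_, fun u v hu => ?_⟩
    · have := congrFun h (0, 0)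
      simp [Data.star, Γ, line] at this
    · rw [Data.wk_comp hu]; simp [ε]

theorem matUnits {K S : Type} [Field K] [Fintype K] [Fintype S] [DecidableEq S] (s₀ : S) (ω : K)
    (h0 : ω ≠ 0) (h1 : ω ≠ 1) :
    ∃ (H : Type) (_ : Group H) (E : S → S → MonoidAlgebra K H),
      (∀ a b c d, E a b * E c d = if b = c then E a d else 0) ∧ E s₀ s₀ ≠ 0 := by
  classical
  let D : (S → Kˣ) →* Equiv.Perm (S × Kˣ) :=
    { toFun := fun x => Equiv.prodShear (Equiv.refl S) (fun s => Equiv.mulLeft (x s))
      map_one' := by ext <;> simp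
      map_mul' := fun x y => by ext <;> simp [mul_assoc] }
  have D1 : ∀ x s u, D x (s, u) = (s, x s * u) := fun _ _ _ => rfl
  have Dinj : Injective D := by
    intro x y h
    ext1 s
    have := congrArg (fun π => (π (s, 1)).2) h
    simpa [D1] using this
  let T : Equiv.Perm S →* Equiv.Perm (S × Kˣ) :=
    { toFun := fun t => Equiv.prodCongr t (Equiv.refl _)
      map_one' := by ext <;> simp
      map_mul' := fun x y => by ext <;> simp }
  have T1 : ∀ t s u, T t (s, u) = (t s, u) := fun _ _ _ => rfl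
  have TD : ∀ t x, T t * D (x ∘ t) = D x * T t := fun t x => by
    ext ⟨s, u⟩ <;> simp [T1, D1]
  let N : K := Fintype.card (S → Kˣ)
  have hN : N ≠ 0 := by
    simp only [N, Fintype.card_fun, Nat.cast_pow, Fintype.card_units]
    apply pow_ne_zero
    rw [Nat.cast_sub Fintype.card_pos, FiniteField.cast_card_eq_zero]
    simp
  let e : S → MonoidAlgebra K (Equiv.Perm (S × Kˣ)) := fun s =>
    ∑ x : S → Kˣ, single (D x) (N⁻¹ * ((x s)⁻¹ : Kˣ))
  have e1 : ∀ s y, single (D y) 1 * e s = (y s : K) • e s := by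
    intro s y
    simp only [e, Finset.mul_sum, single_mul_single, Finset.smul_sum, smul_single, ← map_mul]
    refine Fintype.sum_equiv (Equiv.mulLeft y) _ _ fun x => ?_
    congr 1
    simp
    field_simp
  have e2 : ∀ s y, e s * single (D y) 1 = (y s : K) • e s := by
    intro s y
    rw [← e1]
    simp only [e, Finset.mul_sum, Finset.sum_mul, single_mul_single, ← map_mul, mul_comm y,
      mul_one, one_mul]
  have e3 : ∀ s, e s * e s = e s := by
    intro s
    have : ∀ x : S → Kˣ, single (D x) (N⁻¹ * ((x s)⁻¹ : Kˣ)) * e s = N⁻¹ • e s := by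
      intro x
      have : single (D x) (N⁻¹ * ((x s)⁻¹ : Kˣ)) =
          (N⁻¹ * ((x s)⁻¹ : Kˣ)) • single (D x) (1 : K) := by simp
      rw [this, smul_mul_assoc, e1, smul_smul]
      simp
    conv_lhs => arg 1; unfold e
    rw [Finset.sum_mul]
    simp only [this, Finset.sum_const, Finset.card_univ]
    rw [← Nat.cast_smul_eq_nsmul K, smul_smul, mul_inv_cancel₀ hN, one_smul]
  have e4 : ∀ s s', s ≠ s' → e s * e s' = 0 := by
    intro s s' hs
    let y : S → Kˣ := Function.update 1 s (Units.mk0 ω h0)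
    have a1 : e s * single (D y) 1 * e s' = ω • (e s * e s') := by
      rw [e2, smul_mul_assoc]; simp [y]
    have a2 : e s * single (D y) 1 * e s' = e s * e s' := by
      rw [mul_assoc, e1]; simp [y, hs.symm]
    have : (ω - 1) • (e s * e s') = 0 := by rw [sub_smul, ← a1, a2, one_smul, sub_self]
    exact (smul_eq_zero.1 this).resolve_left (sub_ne_zero.2 h1)
  have e5 : ∀ t s, single (T t) 1 * e s = e (t s) * single (T t) 1 := by
    intro t s
    simp only [e, Finset.mul_sum, Finset.sum_mul, single_mul_single, ← TD, mul_one, one_mul]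
    symm
    exact Fintype.sum_equiv (Equiv.arrowCongr t.symm (Equiv.refl _)) _ _ fun x => rfl
  refine ⟨Equiv.Perm (S × Kˣ), inferInstance,
    fun a b => e a * single (T (Equiv.swap a s₀ * Equiv.swap b s₀)) 1, fun a b c d => ?_, ?_⟩
  · have : ∀ a b, e a * single (T (Equiv.swap a s₀ * Equiv.swap b s₀)) 1 =
        single (T (Equiv.swap a s₀ * Equiv.swap b s₀)) 1 * e b := by
      intro a b; rw [e5]; simp
    beta_reduce
    split_ifs with h
    · subst h
      rw [this a b, mul_assoc, ← mul_assoc (e b), e3, ← mul_assoc, ← this, mul_assoc,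
        single_mul_single, ← map_mul]
      simp [mul_assoc]
    · rw [this a b, mul_assoc, ← mul_assoc (e b), e4 _ _ h, zero_mul, mul_zero]
  · simp only [Equiv.swap_self, Equiv.Perm.refl_mul, ← Equiv.Perm.one_def, map_one, mul_one,
      ← one_def]
    intro h
    have := congrArg (fun x => x.coeff (D 1)) h
    simp only [e, coeff_sum, Finsupp.finsetSum_apply, coeff_single, Finsupp.single_apply,
      Dinj.eq_iff, Finset.sum_ite_eq', Finset.mem_univ, if_true] at this
    simp [hN] at this

theorem scalar {K S G : Type} [Field K] [Fintype K] [Fintype S] [DecidableEq S] [Group G]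
    (s₀ : S) (ω : K) (h0 : ω ≠ 0) (h1 : ω ≠ 1) (Z Θ : Matrix S S (MonoidAlgebra K G))
    (h : Z * Θ = 1) (h' : Θ * Z ≠ 1) :
    ∃ (G' : Type) (_ : Group G') (a b : MonoidAlgebra K G'), a * b = 1 ∧ b * a ≠ 1 := by
  classical
  obtain ⟨H, _, E, hE, hE0⟩ := matUnits s₀ ω h0 h1
  let i₁ := mapDomainRingHom K (MonoidHom.inl G H)
  let i₂ := mapDomainRingHom K (MonoidHom.inr G H)
  have cf : ∀ r x g h, (i₁ r * i₂ x).coeff (g, h) = r.coeff g * x.coeff h := by
    intro r x g h
    induction r using MonoidAlgebra.induction_linear with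
    | zero => simp
    | add a b ha hb => simp [add_mul, ha, hb]
    | single a b =>
      induction x using MonoidAlgebra.induction_linear with
      | zero => simp
      | add a b ha hb => simp only [map_add, mul_add, coeff_add, Finsupp.add_apply, ha, hb]
      | single c d =>
        simp only [i₁, i₂, mapDomainRingHom_apply, mapDomain_single, single_mul_single,
          coeff_single, Finsupp.single_apply]
        by_cases c1 : a = g <;> by_cases c2 : c = h <;> simp [c1, c2]
  have cm : ∀ r x, i₂ x * i₁ r = i₁ r * i₂ x := by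
    intro r x
    induction r using MonoidAlgebra.induction_linear with
    | zero => simp
    | add a b ha hb => simp only [map_add, add_mul, mul_add, ha, hb]
    | single a b =>
      induction x using MonoidAlgebra.induction_linear with
      | zero => simp
      | add a b ha hb => simp only [map_add, add_mul, mul_add, ha, hb]
      | single c d => simp [i₁, i₂, single_mul_single, mul_comm]
  let Ψ : Matrix S S (MonoidAlgebra K G) → MonoidAlgebra K (G × H) := fun M =>
    ∑ a, ∑ b, i₁ (M a b) * i₂ (E a b)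
  have mul : ∀ r r' a b c d, i₁ r * i₂ (E a b) * (i₁ r' * i₂ (E c d)) =
      if b = c then i₁ (r * r') * i₂ (E a d) else 0 := by
    intro r r' a b c d
    rw [mul_assoc, ← mul_assoc (i₂ _), cm, mul_assoc, ← map_mul, hE, ← mul_assoc, ← map_mul]
    split_ifs <;> simp
  have Ψmul : ∀ M N, Ψ M * Ψ N = Ψ (M * N) := by
    intro M N
    simp only [Ψ, Finset.sum_mul]
    refine Finset.sum_congr rfl fun a _ => ?_
    simp only [Finset.mul_sum, mul, Matrix.mul_apply, map_sum, Finset.sum_mul,
      Finset.sum_ite_irrel, Finset.sum_const_zero, Finset.sum_ite_eq, Finset.mem_univ, if_true]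
    rw [Finset.sum_comm]
  have Ψinj : ∀ M N, Ψ M = Ψ N → M = N := by
    intro M N hMN
    have k : ∀ M a b, (i₁ 1 * i₂ (E s₀ a)) * Ψ M * (i₁ 1 * i₂ (E b s₀)) =
        i₁ (M a b) * i₂ (E s₀ s₀) := by
      intro M a b
      simp only [Ψ, Finset.sum_mul, Finset.mul_sum, mul, ite_mul, zero_mul,
        Finset.sum_ite_irrel, Finset.sum_const_zero, Finset.sum_ite_eq', Finset.sum_ite_eq,
        Finset.mem_univ, if_true, one_mul, mul_one]
    obtain ⟨x, hx⟩ : ∃ x, (E s₀ s₀).coeff x ≠ 0 := by
      by_contra hc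
      push Not at hc
      exact hE0 (by ext x; simp [hc])
    ext a b g
    have := congrArg (fun y => y.coeff (g, x)) ((k M a b).symm.trans (hMN ▸ k N a b))
    simp only [cf] at this
    exact mul_right_cancel₀ hx this
  have key : ∀ M N, (Ψ M + (1 - Ψ 1)) * (Ψ N + (1 - Ψ 1)) = Ψ (M * N) + (1 - Ψ 1) := by
    intro M N
    simp only [mul_add, add_mul, mul_sub, sub_mul, Ψmul, mul_one, one_mul]
    abel
  refine ⟨G × H, inferInstance, Ψ Z + (1 - Ψ 1), Ψ Θ + (1 - Ψ 1), by rw [key, h]; abel, ?_⟩
  rw [key]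
  intro hc
  apply h'
  apply Ψinj
  rw [← sub_eq_zero] at hc ⊢
  rw [← hc]; abel

end Vale.Agent.P194
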