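import Mathlib

/-! The code spanned by the lines of an affine space has small dimension. -/

namespace Vale.Agent.P194

open Finset

theorem sum_eval_zero {K : Type} [Field K] [Fintype K] (F : Polynomial K)
    (h : F.natDegree < Fintype.card K - 1) : ∑ t, F.eval t = 0 := by
  simp only [Polynomial.eval_eq_sum_range]
  rw [Finset.sum_comm]
  refine Finset.sum_eq_zero fun i hi => ?_
  rw [← Finset.mul_sum, FiniteField.sum_pow_lt_card_sub_one K i
    (by have := Finset.mem_range.1 hi; omega), mul_zero]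

theorem linesum {K J : Type} [Field K] [Fintype K] [Fintype J] {p w k Q : ℕ} [Fact p.Prime]
    [CharP K p] (hQd : Q = p ^ w) (hK : Fintype.card K = Q ^ (k + 1)) (hJ : Fintype.card J ≤ Q)
    (hQ : 1 < Q) (a : Fin (k + 1) → J → Fin Q) (i₀ : Fin (k + 1))
    (h0 : ∀ j, (a i₀ j).1 = 0) (x d : J → K) :
    ∑ t : K, ∏ j, (x j + t * d j) ^ (finFunctionFinEquiv (fun i => a i j)).1 = 0 := by
  let c : Fin (k + 1) := Fin.last k - i₀
  have hc : i₀ + c = Fin.last k := by simp [c]
  have fr : ∀ (n : ℕ) (y z : K), (y + z) ^ Q ^ n = y ^ Q ^ n + z ^ Q ^ n := by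
    intro n y z
    rw [hQd, ← pow_mul, add_pow_char_pow]
  have md : ∀ (n : ℕ) (y : K), y ^ Q ^ n = y ^ Q ^ (n % (k + 1)) := by
    intro n y
    conv_lhs => rw [← Nat.div_add_mod n (k + 1), pow_add, pow_mul, pow_mul, ← hK,
      FiniteField.pow_card_pow]
  have bij : Function.Bijective (fun y : K => y ^ Q ^ c.1) := by
    rw [← Finite.injective_iff_bijective]
    intro y z hyz
    have := fr c.1 (y - z) z
    rw [sub_add_cancel] at this
    dsimp only at hyz
    rw [hyz, right_eq_add] at this
    exact sub_eq_zero.1 (pow_eq_zero_iff (by positivity) |>.1 this)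
  rw [← bij.sum_comp]
  let F : Polynomial K := ∏ j, ∏ i : Fin (k + 1),
    (Polynomial.C (x j ^ Q ^ i.1) + Polynomial.C (d j ^ Q ^ i.1) *
      Polynomial.X ^ Q ^ (i + c).1) ^ (a i j).1
  have e : ∀ t : K, ∏ j, (x j + t ^ Q ^ c.1 * d j) ^ (finFunctionFinEquiv (fun i => a i j)).1 =
      F.eval t := by
    intro t
    simp only [F, Polynomial.eval_prod, Polynomial.eval_pow, Polynomial.eval_add,
      Polynomial.eval_mul, Polynomial.eval_C, Polynomial.eval_X, finFunctionFinEquiv_apply]
    refine Finset.prod_congr rfl fun j _ => ?_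
    rw [← Finset.prod_pow_eq_pow_sum]
    refine Finset.prod_congr rfl fun i _ => ?_
    rw [mul_comm (a i j).1, pow_mul, fr, mul_pow, ← pow_mul t, ← pow_add, md (c.1 + i.1) t,
      Fin.val_add, add_comm c.1, mul_comm]
  rw [Finset.sum_congr rfl fun t _ => e t]
  apply sum_eval_zero
  have b1 : ∀ j, ∑ i : Fin (k + 1), (a i j).1 * Q ^ (i + c).1 ≤ Q ^ k - 1 := by
    intro j
    have : ∑ i : Fin (k + 1), (a i j).1 * Q ^ (i + c).1 =
        ∑ u : Fin (k + 1), (a (u - c) j).1 * Q ^ u.1 :=
      Fintype.sum_equiv (Equiv.addRight c) _ _ (fun i => by simp)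
    rw [this, Fin.sum_univ_castSucc]
    have z : Fin.last k - c = i₀ := by rw [← hc]; simp
    rw [z, h0, zero_mul, add_zero]
    have := (finFunctionFinEquiv (fun u : Fin k => a (u.castSucc - c) j)).2
    rw [finFunctionFinEquiv_apply] at this
    simp only [Fin.val_castSucc]
    omega
  have b2 : F.natDegree ≤ ∑ _j : J, (Q ^ k - 1) := by
    refine (Polynomial.natDegree_prod_le _ _).trans (Finset.sum_le_sum fun j _ => ?_)
    refine le_trans ?_ (b1 j)
    refine (Polynomial.natDegree_prod_le _ _).trans (Finset.sum_le_sum fun i _ => ?_)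
    refine Polynomial.natDegree_pow_le.trans (Nat.mul_le_mul_left _ ?_)
    refine (Polynomial.natDegree_add_le _ _).trans (max_le (by simp) ?_)
    exact (Polynomial.natDegree_C_mul_le _ _).trans (by simp)
  rw [Finset.sum_const, Finset.card_univ, smul_eq_mul] at b2
  have b3 : Fintype.card J * (Q ^ k - 1) ≤ Q * (Q ^ k - 1) := Nat.mul_le_mul_right _ hJ
  have b4 : 1 ≤ Q ^ k := Nat.one_le_pow _ _ (by omega)
  rw [hK, pow_succ, mul_comm (Q ^ k)]
  rw [Nat.mul_sub Q, mul_one] at b3
  have : Q ≤ Q * Q ^ k := Nat.le_mul_of_pos_right _ b4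
  omega

theorem monIndep {K J ι : Type} [Field K] [Fintype K] [Fintype J] [Fintype ι]
    (e : ι → J → ℕ) (he : Function.Injective e) (hlt : ∀ a j, e a j < Fintype.card K) :
    LinearIndependent K (fun a => fun x : J → K => ∏ j, x j ^ e a j) := by
  classical
  rw [Fintype.linearIndependent_iff]
  intro g hg
  let m : ι → (J →₀ ℕ) := fun a => Finsupp.equivFunOnFinite.symm (e a)
  have hm : Function.Injective m := Finsupp.equivFunOnFinite.symm.injective.comp he
  let F : MvPolynomial J K := ∑ a, MvPolynomial.monomial (m a) (g a)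
  have hF : F = 0 := by
    apply MvPolynomial.eq_zero_of_eval_eq_zero
    · intro v
      have := congrFun hg v
      simp only [Finset.sum_apply, Pi.smul_apply, smul_eq_mul, Pi.zero_apply] at this
      rw [← this]
      simp only [F, map_sum, MvPolynomial.eval_monomial]
      refine Finset.sum_congr rfl fun a _ => ?_
      rw [Finsupp.prod_fintype _ _ (by simp)]
      rfl
    · refine Submodule.sum_mem _ fun a _ => ?_
      rw [MvPolynomial.mem_restrictDegree]
      intro s hs j
      have := MvPolynomial.support_monomial_subset hs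
      rw [Finset.mem_singleton] at this
      subst this
      have := hlt a j
      change e a j ≤ _
      omega
  intro a
  have := congrArg (MvPolynomial.coeff (m a)) hF
  simp only [F, MvPolynomial.coeff_sum, MvPolynomial.coeff_monomial, hm.eq_iff,
    Finset.sum_ite_eq', Finset.mem_univ, if_true, MvPolynomial.coeff_zero] at this
  exact this

/-- indicator of a line -/
def line {K : Type} [Field K] [DecidableEq K] {m : ℕ} (y d : Fin m → K) (s : K × (Fin m → K)) : K :=
  if s.2 = y + s.1 • d then 1 else 0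

theorem small_code {K : Type} [Field K] [Fintype K] [DecidableEq K] {p w k m : ℕ} [Fact p.Prime]
    [CharP K p] (hK : Fintype.card K = (p ^ w) ^ (k + 1)) (hJ : m + 1 ≤ p ^ w)
    (hQ : 1 < p ^ w) (hk : (p ^ w) ^ (m + 1) ≤ k + 1) :
    ∃ R : Submodule K (K × (Fin m → K) → K),
      2 * Module.finrank K R ≤ Fintype.card (K × (Fin m → K)) ∧ ∀ y d, line y d ∈ R := by
  classical
  haveI : NeZero (p ^ w) := ⟨by omega⟩
  let A := {a : Fin (k + 1) → Option (Fin m) → Fin (p ^ w) // ∃ i, a i = 0}
  let e : A → Option (Fin m) → ℕ := fun a j => (finFunctionFinEquiv (fun i => a.1 i j)).1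
  have he : Function.Injective e := by
    intro a b hab
    ext i j
    have := finFunctionFinEquiv.injective (Fin.ext (congrFun hab j))
    exact congrArg Fin.val (congrFun this i)
  have li := monIndep (K := K) e he (fun a j => by rw [hK]; exact Fin.is_lt _)
  let pt : K × (Fin m → K) → Option (Fin m) → K := fun s j => Option.elim j s.1 s.2
  let M : Matrix A (K × (Fin m → K)) K := fun a s => ∏ j, pt s j ^ e a j
  have li' : LinearIndependent K M.row := by
    rw [Fintype.linearIndependent_iff] at li ⊢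
    intro g hg
    apply li g
    ext x
    have := congrFun hg (x none, fun j => x (some j))
    have hx : pt (x none, fun j => x (some j)) = x := by
      ext j; cases j <;> rfl
    simp only [Finset.sum_apply, Pi.smul_apply, Matrix.row, M, hx] at this ⊢
    exact this
  have rk := li'.rank_matrix
  have rn := LinearMap.finrank_range_add_finrank_ker M.mulVecLin
  rw [Module.finrank_fintype_fun_eq_card] at rn
  change M.rank + _ = _ at rn
  refine ⟨LinearMap.ker M.mulVecLin, ?_, fun y d => ?_⟩
  · have c1 : Fintype.card (K × (Fin m → K)) = ((p ^ w) ^ (m + 1)) ^ (k + 1) := by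
      simp only [Fintype.card_prod, Fintype.card_fun, Fintype.card_fin, hK]
      ring
    have c2 : Fintype.card A + ((p ^ w) ^ (m + 1) - 1) ^ (k + 1) =
        ((p ^ w) ^ (m + 1)) ^ (k + 1) := by
      have h1 := Fintype.card_subtype_compl
        (fun a : Fin (k + 1) → Option (Fin m) → Fin (p ^ w) => ∃ i, a i = 0)
      have h2 := Fintype.card_subtype_le
        (fun a : Fin (k + 1) → Option (Fin m) → Fin (p ^ w) => ∃ i, a i = 0)
      have h3 : Fintype.card {a : Fin (k + 1) → Option (Fin m) → Fin (p ^ w) // ¬ ∃ i, a i = 0} =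
          ((p ^ w) ^ (m + 1) - 1) ^ (k + 1) := by
        rw [Fintype.card_congr ((Equiv.subtypeEquivRight (fun a => not_exists)).trans
          (Equiv.subtypePiEquivPi (p := fun _ (b : Option (Fin m) → Fin (p ^ w)) => ¬ b = 0)))]
        simp [Fintype.card_subtype_compl]
      simp only [Fintype.card_fun, Fintype.card_fin, Fintype.card_option] at h1 h2
      change Fintype.card A ≤ _ at h2
      change _ = _ - Fintype.card A at h1
      omega
    have c3 : 1 ≤ (p ^ w) ^ (m + 1) := Nat.one_le_pow _ _ (by omega)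
    obtain ⟨U, hU⟩ : ∃ U, (p ^ w) ^ (m + 1) = U + 1 := ⟨_, (Nat.sub_add_cancel c3).symm⟩
    rw [hU] at c1 c2 hk
    have c4 := pow_add_mul_le_add_pow (a := U) (b := 1) (by omega) (by omega) (k + 1)
    simp only [Nat.add_sub_cancel, mul_one, Nat.cast_id] at c2 c4
    have c5 : U ^ (k + 1) ≤ (k + 1) * U ^ k := by
      rw [pow_succ']; exact Nat.mul_le_mul_right _ (by omega)
    omega
  · rw [LinearMap.mem_ker]
    ext a
    obtain ⟨i₀, h0⟩ := a.2
    have := linesum rfl hK (J := Option (Fin m)) (by simpa using hJ) hQ a.1 i₀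
      (fun j => by rw [h0]; rfl) (pt (0, y)) (pt (1, d))
    rw [Pi.zero_apply, ← this]
    simp only [Matrix.mulVecLin_apply, Matrix.mulVec, dotProduct, line, Fintype.sum_prod_type,
      mul_ite, mul_one, mul_zero, Finset.sum_ite_eq', Finset.mem_univ, if_true]
    refine Finset.sum_congr rfl fun t _ => Finset.prod_congr rfl fun j _ => ?_
    cases j <;> simp [pt, e]

theorem infoSet {K S : Type} [Field K] [Fintype S] [DecidableEq S] (n : ℕ) :
    ∀ R : Submodule K (S → K), Module.finrank K R ≤ n →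
      ∃ I : Finset S, I.card ≤ n ∧ ∀ v ∈ R, (∀ s ∈ I, v s = 0) → v = 0 := by
  induction n with
  | zero =>
    intro R hR
    refine ⟨∅, by simp, fun v hv _ => ?_⟩
    rw [Nat.le_zero, Submodule.finrank_eq_zero] at hR
    simpa [hR] using hv
  | succ n ih =>
    intro R hR
    by_cases h : ∀ v ∈ R, v = 0
    · exact ⟨∅, by simp, fun v hv _ => h v hv⟩
    push Not at h
    obtain ⟨v, hv, hv0⟩ := h
    obtain ⟨s, hs⟩ := Function.ne_iff.1 hv0
    have hlt : R ⊓ LinearMap.ker (LinearMap.proj s : (S → K) →ₗ[K] K) < R := by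
      refine lt_of_le_of_ne inf_le_left fun hc => hs ?_
      rw [← hc] at hv
      exact hv.2
    obtain ⟨I, h1, h2⟩ := ih _ (Nat.le_of_lt_succ ((Submodule.finrank_lt_finrank_of_lt hlt).trans_le hR))
    refine ⟨insert s I, (Finset.card_insert_le _ _).trans (by omega), fun u hu h => ?_⟩
    exact h2 u ⟨hu, h s (by simp)⟩ fun t ht => h t (by simp [ht])

theorem select {K S X : Type} [Field K] [DecidableEq S] [AddCommGroup X] [Module K X]
    (f g h : S → X →ₗ[K] K) (hh : ∀ s, h s = f s ∨ h s = g s) (ω : K) (h1 : ω ≠ 1)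
    (hj : ∀ x, (∀ s, h s x = 0) → x = 0) (T : Finset S) :
    ∃ c : S → K, (∀ s, c s = 1 ∨ c s = ω) ∧
      ∀ x, (∀ s ∈ T, f s x = c s * g s x) → (∀ s ∉ T, h s x = 0) → x = 0 := by
  induction T using Finset.induction_on with
  | empty => exact ⟨fun _ => 1, fun _ => .inl rfl, fun x _ h2 => hj x fun s => h2 s (by simp)⟩
  | insert s₀ T hs ih =>
    obtain ⟨c, hc, ih⟩ := ih
    by_contra hcon
    have key : ∀ z : K, z = 1 ∨ z = ω → ∃ x, (∀ s ∈ T, f s x = c s * g s x) ∧
        (∀ s ∉ T, s ≠ s₀ → h s x = 0) ∧ f s₀ x = z * g s₀ x ∧ h s₀ x ≠ 0 := by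
      intro z hz
      by_contra hn
      apply hcon
      refine ⟨Function.update c s₀ z, fun s => ?_, fun x a1 a2 => ?_⟩
      · by_cases e : s = s₀
        · subst e; simpa using hz
        · simpa [e] using hc s
      · have b1 : ∀ s ∈ T, f s x = c s * g s x := fun s hT => by
          have := a1 s (by simp [hT])
          rwa [Function.update_of_ne (by rintro rfl; exact hs hT)] at this
        have b2 : ∀ s ∉ T, s ≠ s₀ → h s x = 0 := fun s c1 c2 => a2 s (by simp [c1, c2])
        refine ih x b1 fun s hT => ?_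
        by_cases e : s = s₀
        · subst e
          by_contra b3
          exact hn ⟨x, b1, b2, by simpa using a1 s (by simp), b3⟩
        · exact b2 s hT e
    obtain ⟨x₁, a1, a2, a3, a4⟩ := key 1 (.inl rfl)
    obtain ⟨x₂, b1, b2, b3, b4⟩ := key ω (.inr rfl)
    have := ih (h s₀ x₂ • x₁ - h s₀ x₁ • x₂) (fun s hT => by
      simp only [map_sub, map_smul, smul_eq_mul, a1 s hT, b1 s hT]; ring) (fun s hT => by
      by_cases e : s = s₀
      · subst e; simp only [map_sub, map_smul, smul_eq_mul]; ring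
      · simp [a2 s hT e, b2 s hT e])
    have e1 := congrArg (f s₀) this
    have e2 := congrArg (g s₀) this
    simp only [map_sub, map_smul, smul_eq_mul, map_zero, a3, b3, one_mul] at e1 e2
    have e3 : h s₀ x₂ * (1 - ω) * g s₀ x₁ = 0 := by linear_combination e1 - ω * e2
    have e4 : g s₀ x₁ = 0 := by
      simpa [b4, sub_eq_zero, h1.symm] using e3
    rcases hh s₀ with e | e
    · rw [e, a3, e4] at a4; simp at a4
    · rw [e] at a4; exact a4 e4

theorem split_code {K S : Type} [Field K] [Fintype S] [DecidableEq S] (R : Submodule K (S → K))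
    (hR : 2 * Module.finrank K R ≤ Fintype.card S) (ω : K) (h0 : ω ≠ 0) (h1 : ω ≠ 1) :
    ∃ (P : (S → K) →ₗ[K] (S → K)) (ι : Equiv.Perm S) (c : S → K), (∀ s, c s ≠ 0) ∧
      (∀ v, P (P v) = P v) ∧ (∀ v ∈ R, P v = v) ∧ ∀ v ∈ R, P (fun s => c s * v (ι s)) = 0 := by
  obtain ⟨I, hI, hI'⟩ := infoSet _ R le_rfl
  obtain ⟨t, ht, ht'⟩ := Finset.exists_subset_card_eq (s := Iᶜ) (n := I.card)
    (by rw [Finset.card_compl]; omega)
  obtain ⟨ι, hι⟩ := Equiv.Perm.exists_map_finset_eq I t ht'.symm
  have hι' : ∀ s ∈ I, ι s ∉ I := fun s hs => by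
    have : ι s ∈ t := by rw [← hι]; exact Finset.mem_map_of_mem _ hs
    simpa using ht this
  let f : S → (R × R) →ₗ[K] K := fun s =>
    (LinearMap.proj s) ∘ₗ R.subtype ∘ₗ LinearMap.fst K R R
  let g : S → (R × R) →ₗ[K] K := fun s =>
    (LinearMap.proj (ι s)) ∘ₗ R.subtype ∘ₗ LinearMap.snd K R R
  obtain ⟨c, hc, hc'⟩ := select f g (fun s => if s ∈ I then f s else g s)
    (fun s => by split_ifs <;> simp) ω h1 (by
      rintro ⟨u, v⟩ h
      have a1 : u.1 = 0 := hI' _ u.2 fun s hs => by simpa [hs, f] using h s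
      have a2 : v.1 = 0 := hI' _ v.2 fun s hs => by
        have : ι.symm s ∉ I := fun hc => hι' _ hc (by simpa using hs)
        simpa [this, g] using h (ι.symm s)
      exact Prod.ext (Subtype.ext a1) (Subtype.ext a2)) Finset.univ
  let T : (S → K) →ₗ[K] (S → K) :=
    { toFun := fun v s => c s * v (ι s)
      map_add' := fun a b => by ext s; simp [mul_add]
      map_smul' := fun a b => by ext s; simp; ring }
  have hd : Disjoint R (R.map T) := by
    rw [Submodule.disjoint_def]
    rintro u hu ⟨v, hv, rfl⟩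
    have := hc' (⟨T v, hu⟩, ⟨v, hv⟩) (fun s _ => rfl) (fun s hs => absurd (Finset.mem_univ s) hs)
    exact congrArg (fun x => x.1.1) this
  obtain ⟨R', h2, h3⟩ := hd.exists_isCompl
  refine ⟨R'.projection _ h3, ι, c, fun s => ?_, fun v => ?_, fun v hv => ?_, fun v hv => ?_⟩
  · rcases hc s with e | e <;> rw [e]
    · exact one_ne_zero
    · exact h0
  · exact Submodule.projection_apply_of_mem_left _ (Submodule.projection_apply_mem _ _)
  · exact Submodule.projection_apply_of_mem_left _ (h2 hv)
  · exact Submodule.projection_apply_of_mem_right _ ⟨v, hv, rfl⟩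

end Vale.Agent.P194
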