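import Vale.Agent.P194.Planar

/-! Decorated planar diagrams and their reductions. -/

namespace Vale.Agent.P194

open Equiv Function

/-- inverse letter -/
def linv {S : Type} (a : S × Bool) : S × Bool := (a.1, !a.2)

@[simp] theorem linv_linv {S : Type} (a : S × Bool) : linv (linv a) = a := by
  simp [linv]

theorem linv_ne {S : Type} (a : S × Bool) : linv a ≠ a := by
  rcases a with ⟨s, b⟩
  cases b <;> simp [linv]

/-- decorated diagram -/
structure Dg {S W G : Type} [Group G] (Step : W → S × Bool → W → Prop) (γ : S × Bool → G)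
    (x y : W) where
  D : Type
  [fin : Fintype D]
  [dec : DecidableEq D]
  φ : Perm D
  α : D → D
  invol : Involutive α
  star : D
  hstar : α star = star
  pl : Pl φ α
  lab : D → S × Bool
  pos : D → W
  el : D → G
  hlab : ∀ d, α d ≠ d → lab (α d) = linv (lab d)
  hstep : ∀ d, α d ≠ d → Step (pos d) (lab d) (pos (φ d))
  hdum : ∀ d, α d = d → d ≠ star → pos (φ d) = pos d
  hx : pos (φ star) = x
  hy : pos star = y
  hel : ∀ d, el (φ d) = el (α d)
  hel2 : ∀ d, α d ≠ d → el (φ d) = el d * γ (lab d)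

attribute [instance] Dg.fin Dg.dec

variable {S W G : Type} [Group G] {Step : W → S × Bool → W → Prop} {γ : S × Bool → G}
  {x y : W}

/-- size of a diagram -/
def Dg.mu (Δ : Dg Step γ x y) : ℕ :=
  Fintype.card Δ.D + (Finset.univ.filter (fun d => Δ.α d ≠ d)).card

theorem Dg.moveK (Δ : Dg Step γ x y) (d : Δ.D) (hd : Δ.α d = d) (hs : d ≠ Δ.star) :
    ∃ Δ' : Dg Step γ x y, Δ'.mu < Δ.mu := by
  have hα : ∀ e, e ≠ d → Δ.α e ≠ d := fun e he hc => he (by
    rw [← Δ.invol e, hc, hd])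
  let ψ : Perm Δ.D := Δ.φ * swap (Δ.φ⁻¹ d) d
  have hψd : ψ d = d := by simp [ψ]
  have hψ : ∀ e, e ≠ d → ψ e = if Δ.φ e = d then Δ.φ d else Δ.φ e := by
    intro e he
    by_cases c : Δ.φ e = d
    · have : e = Δ.φ⁻¹ d := by rw [← c]; simp
      rw [if_pos c, this]; simp [ψ]
    · have : e ≠ Δ.φ⁻¹ d := by rintro rfl; exact c (by simp)
      rw [if_neg c]
      change Δ.φ (swap (Δ.φ⁻¹ d) d e) = _
      rw [swap_apply_of_ne_of_ne this he]
  have hsub : ∀ e, ψ e ≠ d ↔ e ≠ d := fun e => by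
    rw [not_iff_not]
    constructor
    · intro h; exact ψ.injective (h.trans hψd.symm)
    · rintro rfl; exact hψd
  let φ' : Perm {e // e ≠ d} := ψ.subtypePerm hsub
  have hφ' : ∀ e, (φ' e).1 = if Δ.φ e.1 = d then Δ.φ d else Δ.φ e.1 := fun e => hψ e.1 e.2
  have hp : ∀ e, Δ.pos (φ' e).1 = Δ.pos (Δ.φ e.1) := by
    intro e; rw [hφ']; split_ifs with c
    · rw [c, Δ.hdum d hd hs]
    · rfl
  have he : ∀ e, Δ.el (φ' e).1 = Δ.el (Δ.φ e.1) := by
    intro e; rw [hφ']; split_ifs with c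
    · rw [c, Δ.hel d, hd]
    · rfl
  refine ⟨{ D := {e // e ≠ d}
            φ := φ'
            α := fun e => ⟨Δ.α e.1, hα _ e.2⟩
            invol := fun e => Subtype.ext (Δ.invol e.1)
            star := ⟨Δ.star, hs.symm⟩
            hstar := Subtype.ext Δ.hstar
            pl := Pl_K hd (fun _ => rfl) hφ' Δ.pl
            lab := fun e => Δ.lab e.1
            pos := fun e => Δ.pos e.1
            el := fun e => Δ.el e.1
            hlab := fun e h => Δ.hlab e.1 (fun hc => h (Subtype.ext hc))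
            hstep := fun e h => by
              rw [hp]; exact Δ.hstep e.1 (fun hc => h (Subtype.ext hc))
            hdum := fun e h h' => by
              rw [hp]
              exact Δ.hdum e.1 (congrArg Subtype.val h) (fun hc => h' (Subtype.ext hc))
            hx := by rw [hp]; exact Δ.hx
            hy := Δ.hy
            hel := fun e => by rw [he]; exact Δ.hel e.1
            hel2 := fun e h => by
              rw [he]; exact Δ.hel2 e.1 (fun hc => h (Subtype.ext hc)) }, ?_⟩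
  unfold Dg.mu
  refine Nat.add_lt_add_of_lt_of_le ?_ ?_
  · exact Fintype.card_subtype_lt (p := fun e => e ≠ d) (x := d) (by simp)
  · refine Finset.card_le_card_of_injOn Subtype.val ?_ Subtype.val_injective.injOn
    intro e he
    simp only [Finset.coe_filter, Finset.mem_univ, true_and, Set.mem_setOf_eq] at he ⊢
    exact fun hc => he (Subtype.ext hc)

theorem Dg.moveE (Δ : Dg Step γ x y) (d : Δ.D) (hd : Δ.α d ≠ d)
    (h1 : Δ.pos (Δ.φ d) = Δ.pos (Δ.α d)) (h2 : Δ.pos (Δ.φ (Δ.α d)) = Δ.pos d) :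
    ∃ Δ' : Dg Step γ x y, Δ'.mu < Δ.mu := by
  obtain ⟨d', hd'⟩ : ∃ d', Δ.α d = d' := ⟨_, rfl⟩
  have hd'' : Δ.α d' = d := by rw [← hd', Δ.invol]
  rw [hd'] at hd h1 h2
  let α' : Δ.D → Δ.D := fun e => if e = d ∨ e = d' then e else Δ.α e
  let φ' : Perm Δ.D := Δ.φ * swap d d'
  have a1 : α' d = d := by simp [α']
  have a2 : α' d' = d' := by simp [α']
  have a3 : φ' d = Δ.φ d' := by simp [φ']
  have a4 : φ' d' = Δ.φ d := by simp [φ']
  have a5 : ∀ e, e ≠ d → e ≠ d' → φ' e = Δ.φ e ∧ α' e = Δ.α e ∧ Δ.α e ≠ d ∧ Δ.α e ≠ d' := by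
    intro e c1 c2
    refine ⟨by simp [φ', swap_apply_of_ne_of_ne c1 c2], by simp [α', c1, c2], ?_, ?_⟩
    · intro hc; apply c2; rw [← Δ.invol e, hc, hd']
    · intro hc; apply c1; rw [← Δ.invol e, hc, hd'']
  have s1 : Δ.star ≠ d := by
    intro hc; apply hd; rw [← hd', ← hc, Δ.hstar]
  have s2 : Δ.star ≠ d' := by
    intro hc; apply hd; rw [← hd'', ← hc, Δ.hstar]
  have nd : ∀ e, α' e ≠ e → e ≠ d ∧ e ≠ d' := fun e he =>
    ⟨by rintro rfl; exact he a1, by rintro rfl; exact he a2⟩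
  refine ⟨{ D := Δ.D
            φ := φ'
            α := α'
            invol := ?_
            star := Δ.star
            hstar := by rw [(a5 _ s1 s2).2.1, Δ.hstar]
            pl := Pl_E hd' hd'' a3 a4 a1 a2 a5 Δ.pl
            lab := Δ.lab
            pos := Δ.pos
            el := Δ.el
            hlab := ?_
            hstep := ?_
            hdum := ?_
            hx := by rw [(a5 _ s1 s2).1, Δ.hx]
            hy := Δ.hy
            hel := ?_
            hel2 := ?_ }, ?_⟩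
  · intro e
    by_cases c1 : e = d
    · rw [c1, a1, a1]
    by_cases c2 : e = d'
    · rw [c2, a2, a2]
    obtain ⟨-, b2, b3, b4⟩ := a5 e c1 c2
    rw [b2, (a5 _ b3 b4).2.1, Δ.invol]
  · intro e he
    obtain ⟨c1, c2⟩ := nd e he
    rw [(a5 e c1 c2).2.1] at he ⊢
    exact Δ.hlab e he
  · intro e he
    obtain ⟨c1, c2⟩ := nd e he
    rw [(a5 e c1 c2).2.1] at he
    rw [(a5 e c1 c2).1]
    exact Δ.hstep e he
  · intro e he hs
    by_cases c1 : e = d
    · rw [c1, a3, h2]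
    by_cases c2 : e = d'
    · rw [c2, a4, h1]
    rw [(a5 e c1 c2).2.1] at he
    rw [(a5 e c1 c2).1]
    exact Δ.hdum e he hs
  · intro e
    by_cases c1 : e = d
    · rw [c1, a3, a1, Δ.hel, hd'']
    by_cases c2 : e = d'
    · rw [c2, a4, a2, Δ.hel, hd']
    rw [(a5 e c1 c2).1, (a5 e c1 c2).2.1, Δ.hel]
  · intro e he
    obtain ⟨c1, c2⟩ := nd e he
    rw [(a5 e c1 c2).2.1] at he
    rw [(a5 e c1 c2).1]
    exact Δ.hel2 e he
  · unfold Dg.mu
    refine Nat.add_lt_add_left (Finset.card_lt_card ⟨?_, ?_⟩) _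
    · intro e he
      simp only [Finset.mem_filter, Finset.mem_univ, true_and] at he ⊢
      obtain ⟨c1, c2⟩ := nd e he
      rwa [(a5 e c1 c2).2.1] at he
    · intro hc
      have := @hc d (by simpa [hd'] using hd)
      simp only [Finset.mem_filter, Finset.mem_univ, true_and] at this
      exact this a1

theorem Dg.moveF (hγ : ∀ a, γ (linv a) = (γ a)⁻¹) (Δ : Dg Step γ x y) (d : Δ.D) {x' : W}
    (hd : Δ.α d ≠ d) (hd' : Δ.α (Δ.φ d) ≠ Δ.φ d) (hl : Δ.lab (Δ.φ d) = linv (Δ.lab d))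
    (hz : (Δ.pos (Δ.φ (Δ.φ d)) = Δ.pos d ∧ x' = x) ∨
      (Δ.φ Δ.star = d ∧ x' = Δ.pos (Δ.φ (Δ.φ d)))) :
    ∃ Δ' : Dg Step γ x' y, Δ'.mu < Δ.mu := by
  obtain ⟨d', h0⟩ : ∃ d', Δ.φ d = d' := ⟨_, rfl⟩
  obtain ⟨a, h1⟩ : ∃ a, Δ.α d = a := ⟨_, rfl⟩
  obtain ⟨a', h2⟩ : ∃ a', Δ.α d' = a' := ⟨_, rfl⟩
  have h3 : Δ.α a = d := by rw [← h1, Δ.invol]
  have h4 : Δ.α a' = d' := by rw [← h2, Δ.invol]
  rw [h0] at hd' hl hz
  obtain ⟨z, hzz⟩ : ∃ z, Δ.pos (Δ.φ d') = z := ⟨_, rfl⟩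
  rw [hzz] at hz
  have n1 : d ≠ d' := by rintro rfl; exact linv_ne _ hl.symm
  have n2 : a ≠ d := h1 ▸ hd
  have n5 : a' ≠ d' := h2 ▸ hd'
  have s1 : Δ.star ≠ d := by rintro rfl; exact hd Δ.hstar
  have s2 : Δ.star ≠ d' := by rintro rfl; exact hd' Δ.hstar
  have s3 : Δ.star ≠ a := by
    rintro rfl; rw [Δ.hstar] at h3; exact s1 h3
  have s4 : Δ.star ≠ a' := by
    rintro rfl; rw [Δ.hstar] at h4; exact s2 h4
  let α' : Δ.D → Δ.D := fun e => if e = d ∨ e = d' then e else if e = a then a' else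
    if e = a' then a else Δ.α e
  have a1 : α' d = d := by simp [α']
  have a2 : α' d' = d' := by simp [α']
  have a5 : ∀ e, e ≠ d → e ≠ d' → e ≠ a → e ≠ a' →
      α' e = Δ.α e ∧ Δ.α e ≠ d ∧ Δ.α e ≠ d' ∧ Δ.α e ≠ a ∧ Δ.α e ≠ a' := by
    intro e c1 c2 c3 c4
    refine ⟨by simp [α', c1, c2, c3, c4], ?_, ?_, ?_, ?_⟩
    · intro hc; apply c3; rw [← Δ.invol e, hc, h1]
    · intro hc; apply c4; rw [← Δ.invol e, hc, h2]
    · intro hc; apply c1; rw [← Δ.invol e, hc, h3]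
    · intro hc; apply c2; rw [← Δ.invol e, hc, h4]
  have naa : a ≠ a' := by
    intro hc; apply n1; rw [← h3, hc, h4]
  have hcase : (a = d' ∧ a' = d) ∨ (a ≠ d' ∧ a' ≠ d ∧ α' a = a' ∧ α' a' = a) := by
    by_cases c : a = d'
    · left; exact ⟨c, by rw [← h2, ← c, h3]⟩
    · have c' : a' ≠ d := by intro hc; apply c; rw [← h1, ← hc, h4]
      right; exact ⟨c, c', by simp [α', n2, c], by simp [α', n5, c', naa.symm]⟩
  have hne : ∀ e, e ≠ d → Δ.φ e ≠ d' := fun e he hc => he (Δ.φ.injective (hc.trans h0.symm))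
  have nd : ∀ e, α' e ≠ e → e ≠ d ∧ e ≠ d' ∧ Δ.α e ≠ e := fun e he => by
    have c1 : e ≠ d := by rintro rfl; exact he a1
    have c2 : e ≠ d' := by rintro rfl; exact he a2
    refine ⟨c1, c2, ?_⟩
    by_cases c3 : e = a
    · rw [c3, h3]; exact n2.symm
    by_cases c4 : e = a'
    · rw [c4, h4]; exact n5.symm
    rwa [(a5 e c1 c2 c3 c4).1] at he
  let pos' : Δ.D → W := update (update Δ.pos d z) d' z
  have p1 : pos' d = z := by simp [pos', n1]
  have p2 : pos' d' = z := by simp [pos']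
  have p3 : ∀ e, e ≠ d → e ≠ d' → pos' e = Δ.pos e := fun e c1 c2 => by simp [pos', c1, c2]
  have p4 : ∀ e, e ≠ d → e ≠ Δ.star → pos' (Δ.φ e) = Δ.pos (Δ.φ e) := by
    intro e c1 c2
    by_cases c : Δ.φ e = d
    · rw [c, p1]
      rcases hz with hz | hz
      · exact hz.1
      · exact absurd (Δ.φ.injective (c.trans hz.1.symm)) c2
    · exact p3 _ c (hne _ c1)
  let el' : Δ.D → G := update Δ.el d' (Δ.el d)
  have e2 : el' d' = Δ.el d := by simp [el']
  have e3 : ∀ e, e ≠ d' → el' e = Δ.el e := fun e c => by simp [el', c]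
  have e4 : Δ.el (Δ.φ d') = Δ.el d := by
    have := Δ.hel2 d hd
    rw [h0] at this
    rw [Δ.hel2 d' hd', this, hl, hγ]; simp
  have l1 : Δ.lab a = linv (Δ.lab d) := by rw [← h1, Δ.hlab d hd]
  have l2 : Δ.lab a' = Δ.lab d := by rw [← h2, Δ.hlab d' hd', hl, linv_linv]
  refine ⟨{ D := Δ.D
            φ := Δ.φ
            α := α'
            invol := ?_
            star := Δ.star
            hstar := by rw [(a5 _ s1 s2 s3 s4).1, Δ.hstar]
            pl := ?_
            lab := Δ.lab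
            pos := pos'
            el := el'
            hlab := ?_
            hstep := ?_
            hdum := ?_
            hx := ?_
            hy := by rw [p3 _ s1 s2, Δ.hy]
            hel := ?_
            hel2 := ?_ }, ?_⟩
  · intro e
    by_cases c1 : e = d
    · rw [c1, a1, a1]
    by_cases c2 : e = d'
    · rw [c2, a2, a2]
    by_cases c3 : e = a
    · rcases hcase with h | h
      · exact absurd (c3.trans h.1) c2
      · rw [c3, h.2.2.1, h.2.2.2]
    by_cases c4 : e = a'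
    · rcases hcase with h | h
      · exact absurd (c4.trans h.2) c1
      · rw [c4, h.2.2.2, h.2.2.1]
    obtain ⟨b1, b2, b3, b4, b5⟩ := a5 e c1 c2 c3 c4
    rw [b1, (a5 _ b2 b3 b4 b5).1, Δ.invol]
  · rcases hcase with h | h
    · refine Pl_spur (h1.trans h.1) (h2.trans h.2) a1 a2 (fun e c1 c2 => ?_) Δ.pl
      exact (a5 e c1 c2 (h.1 ▸ c2) (h.2 ▸ c1)).1
    · refine Pl_F Δ.φ.injective h0 h1 h2 h3 h4 n1 n2 h.1 h.2.1 n5 a1 a2 h.2.2.1 h.2.2.2
        (fun e c1 c2 c3 c4 => ?_) Δ.pl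
      obtain ⟨b1, b2, b3, -⟩ := a5 e c1 c2 c3 c4
      exact ⟨b1, b2, b3⟩
  · intro e he
    obtain ⟨c1, c2, c5⟩ := nd e he
    by_cases c3 : e = a
    · rcases hcase with h | h
      · exact absurd (c3.trans h.1) c2
      · rw [c3, h.2.2.1, l1, l2, linv_linv]
    by_cases c4 : e = a'
    · rcases hcase with h | h
      · exact absurd (c4.trans h.2) c1
      · rw [c4, h.2.2.2, l1, l2]
    rw [(a5 e c1 c2 c3 c4).1]
    exact Δ.hlab e c5
  · intro e he
    obtain ⟨c1, c2, c5⟩ := nd e he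
    rw [p3 e c1 c2, p4 e c1 (by rintro rfl; exact c5 Δ.hstar)]
    exact Δ.hstep e c5
  · intro e he hs
    by_cases c1 : e = d
    · rw [c1, h0, p1, p2]
    by_cases c2 : e = d'
    · rw [c2, p4 _ n1.symm s2.symm, p2, hzz]
    rw [p3 e c1 c2, p4 e c1 hs]
    by_cases c3 : e = a
    · rcases hcase with h | h
      · exact absurd (c3.trans h.1) c2
      · rw [c3, h.2.2.1] at he; exact absurd he.symm naa
    by_cases c4 : e = a'
    · rcases hcase with h | h
      · exact absurd (c4.trans h.2) c1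
      · rw [c4, h.2.2.2] at he; exact absurd he naa
    rw [(a5 e c1 c2 c3 c4).1] at he
    exact Δ.hdum e he hs
  · by_cases c : Δ.φ Δ.star = d
    · rw [c, p1]
      rcases hz with hz | hz
      · rw [hz.1, hz.2, ← c, Δ.hx]
      · exact hz.2.symm
    · rw [p3 _ c (hne _ s1), Δ.hx]
      rcases hz with hz | hz
      · exact hz.2.symm
      · exact absurd hz.1 c
  · intro e
    by_cases c1 : e = d
    · rw [c1, h0, a1, e2, e3 _ n1]
    by_cases c2 : e = d'
    · rw [c2, a2, e2, e3 _ (hne _ n1.symm), e4]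
    rw [e3 _ (hne _ c1)]
    by_cases c3 : e = a
    · rcases hcase with h | h
      · exact absurd (c3.trans h.1) c2
      · rw [c3, h.2.2.1, e3 _ n5, Δ.hel, h3, ← h2, ← Δ.hel, e4]
    by_cases c4 : e = a'
    · rcases hcase with h | h
      · exact absurd (c4.trans h.2) c1
      · rw [c4, h.2.2.2, e3 _ h.1, Δ.hel, h4, ← h1, ← Δ.hel, h0]
    obtain ⟨b1, b2, b3, -⟩ := a5 e c1 c2 c3 c4
    rw [b1, e3 _ b3, Δ.hel]
  · intro e he
    obtain ⟨c1, c2, c5⟩ := nd e he
    rw [e3 _ (hne _ c1), e3 _ c2]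
    exact Δ.hel2 e c5
  · unfold Dg.mu
    refine Nat.add_lt_add_left (Finset.card_lt_card ⟨?_, ?_⟩) _
    · intro e he
      simp only [Finset.mem_filter, Finset.mem_univ, true_and] at he ⊢
      exact (nd e he).2.2
    · intro hc
      have := @hc d (by simpa using hd)
      simp only [Finset.mem_filter, Finset.mem_univ, true_and] at this
      exact this a1

/-- reduced diagrams -/
structure Dg.Red (Δ : Dg Step γ x y) : Prop where
  nodum : ∀ d, d ≠ Δ.star → Δ.α d ≠ d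
  noE : ∀ d, d ≠ Δ.star → Δ.pos (Δ.φ d) = Δ.pos (Δ.α d) → Δ.pos (Δ.φ (Δ.α d)) = Δ.pos d → False
  noF : ∀ d, d ≠ Δ.star → Δ.φ d ≠ Δ.star → Δ.lab (Δ.φ d) = linv (Δ.lab d) →
    Δ.pos (Δ.φ (Δ.φ d)) = Δ.pos d → False

theorem exists_red (hγ : ∀ a, γ (linv a) = (γ a)⁻¹) (h : Nonempty (Dg Step γ x y)) :
    ∃ Δ : Dg Step γ x y, Δ.Red := by
  classical
  have hex : ∃ n, ∃ Δ : Dg Step γ x y, Δ.mu = n := by
    obtain ⟨Δ⟩ := h; exact ⟨_, Δ, rfl⟩
  obtain ⟨Δ, hΔ⟩ := Nat.find_spec hex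
  have hmin : ∀ Δ' : Dg Step γ x y, ¬ Δ'.mu < Δ.mu := fun Δ' hc =>
    Nat.find_min hex (hΔ ▸ hc) ⟨Δ', rfl⟩
  have nodum : ∀ d, d ≠ Δ.star → Δ.α d ≠ d := fun d hd hc => by
    obtain ⟨Δ', h'⟩ := Δ.moveK d hc hd
    exact hmin _ h'
  refine ⟨Δ, nodum, fun d hd h1 h2 => ?_, fun d hd hd' h1 h2 => ?_⟩
  · obtain ⟨Δ', h'⟩ := Δ.moveE d (nodum d hd) h1 h2
    exact hmin _ h'
  · obtain ⟨Δ', h'⟩ := Δ.moveF hγ d (nodum d hd) (nodum _ hd') h1 (Or.inl ⟨h2, rfl⟩)
    exact hmin _ h'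

theorem Dg.alpha_ne (Δ : Dg Step γ x y) {d : Δ.D} (hd : d ≠ Δ.star) : Δ.α d ≠ Δ.star :=
  fun hc => hd (by rw [← Δ.invol d, hc, Δ.hstar])

end Vale.Agent.P194
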