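import Vale.Agent.P194.Diagram

/-! The van Kampen lemma for graphical presentations. -/

namespace Vale.Agent.P194

open Equiv Function

variable {S V G : Type} [Group G]

/-- the graph together with the graph of words -/
def StepP (Step : V → S × Bool → V → Prop) :
    V ⊕ List (S × Bool) → S × Bool → V ⊕ List (S × Bool) → Prop
  | .inl v, a, .inl v' => Step v a v'
  | .inr l, a, .inr l' => l = a :: l'
  | _, _, _ => False

/-- labelled walks -/
inductive Wk (Step : V → S × Bool → V → Prop) : V → List (S × Bool) → V → Prop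
  | nil (v : V) : Wk Step v [] v
  | cons {v v' v'' : V} {a : S × Bool} {l : List (S × Bool)} :
      Step v a v' → Wk Step v' l v'' → Wk Step v (a :: l) v''

/-- fillable words -/
def Fill (Step : V → S × Bool → V → Prop) (γ : S × Bool → G) (w : List (S × Bool)) : Prop :=
  Nonempty (Dg (StepP Step) γ (.inr w) (.inr []))

variable {Step : V → S × Bool → V → Prop} {γ : S × Bool → G}

theorem StepP.of_inr {l : List (S × Bool)} {a : S × Bool} {q : V ⊕ List (S × Bool)}
    (h : StepP Step (.inr l) a q) : ∃ l', q = .inr l' ∧ l = a :: l' := by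
  rcases q with v | l'
  · exact h.elim
  · exact ⟨l', rfl, h⟩

theorem StepP.to_inr {l : List (S × Bool)} {a : S × Bool} {q : V ⊕ List (S × Bool)}
    (h : StepP Step q a (.inr l)) : q = .inr (a :: l) := by
  rcases q with v | l'
  · exact h.elim
  · exact congrArg _ h

theorem StepP.of_inl {v : V} {a : S × Bool} {q : V ⊕ List (S × Bool)}
    (h : StepP Step (.inl v) a q) : ∃ v', q = .inl v' ∧ Step v a v' := by
  rcases q with v' | l'
  · exact ⟨v', rfl, h⟩
  · exact h.elim

theorem fill_nil [Nonempty S] : Fill Step γ [] :=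
  ⟨{ D := Unit
     φ := 1
     α := id
     invol := fun _ => rfl
     star := ()
     hstar := rfl
     pl := fun h _ => ⟨h, fun _ => rfl, fun _ => rfl⟩
     lab := fun _ => (Classical.arbitrary S, true)
     pos := fun _ => .inr []
     el := fun _ => 1
     hlab := fun _ h => absurd rfl h
     hstep := fun _ h => absurd rfl h
     hdum := fun _ _ h => absurd rfl h
     hx := rfl
     hy := rfl
     hel := fun _ => rfl
     hel2 := fun _ h => absurd rfl h }⟩

theorem fill_fold (hγ : ∀ a, γ (linv a) = (γ a)⁻¹) {a : S × Bool} {w : List (S × Bool)}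
    (h : Fill Step γ (a :: linv a :: w)) : Fill Step γ w := by
  obtain ⟨Δ, hΔ⟩ := exists_red hγ h
  have hx := Δ.hx
  have hy := Δ.hy
  have n1 : Δ.φ Δ.star ≠ Δ.star := by
    intro hc; rw [hc, hy] at hx; simp at hx
  have s1 := Δ.hstep _ (hΔ.nodum _ n1)
  rw [hx] at s1
  obtain ⟨l, e1, e2⟩ := s1.of_inr
  obtain ⟨e3, rfl⟩ := List.cons.inj e2
  have n2 : Δ.φ (Δ.φ Δ.star) ≠ Δ.star := by
    intro hc; rw [hc, hy] at e1; simp at e1
  have s2 := Δ.hstep _ (hΔ.nodum _ n2)
  rw [e1] at s2
  obtain ⟨l, e4, e5⟩ := s2.of_inr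
  obtain ⟨e6, rfl⟩ := List.cons.inj e5
  obtain ⟨Δ', -⟩ := Δ.moveF hγ _ (hΔ.nodum _ n1) (hΔ.nodum _ n2) (by rw [← e6, ← e3])
    (Or.inr ⟨rfl, e4.symm⟩)
  exact ⟨Δ'⟩

theorem fill_rot1 (hγ : ∀ a, γ (linv a) = (γ a)⁻¹) {a : S × Bool} {w : List (S × Bool)}
    (h : Fill Step γ (a :: w)) : Fill Step γ (w ++ [a]) := by
  by_cases hw : w = []
  · subst hw; exact h
  obtain ⟨Δ, hΔ⟩ := exists_red hγ h
  have hx := Δ.hx
  have hy := Δ.hy
  obtain ⟨e, h0⟩ : ∃ e, Δ.φ Δ.star = e := ⟨_, rfl⟩
  obtain ⟨b, h1⟩ : ∃ b, Δ.φ b = Δ.star := Δ.φ.surjective _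
  rw [h0] at hx
  have n1 : e ≠ Δ.star := by
    intro hc; rw [hc, hy] at hx; simp at hx
  have s1 := Δ.hstep _ (hΔ.nodum _ n1)
  rw [hx] at s1
  obtain ⟨l, e1, e2⟩ := s1.of_inr
  obtain ⟨e3, rfl⟩ := List.cons.inj e2
  have n2 : b ≠ e := by
    rintro rfl; rw [h1, hy] at e1; exact hw (Sum.inr.inj e1).symm
  have n3 : b ≠ Δ.star := by rintro rfl; exact n1 (h0.symm.trans h1)
  have hne : ∀ x, x ≠ b → Δ.φ x ≠ Δ.star := fun x hx hc => hx (Δ.φ.injective (hc.trans h1.symm))
  have hne' : ∀ x, x ≠ Δ.star → Δ.φ x ≠ e := fun x hx hc =>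
    hx (Δ.φ.injective (hc.trans h0.symm))
  let φ' : Perm Δ.D := swap Δ.star e * Δ.φ * swap Δ.star e
  have a2 : φ' b = e := by simp [φ', swap_apply_of_ne_of_ne n3 n2, h1]
  have a3 : φ' e = Δ.star := by simp [φ', h0]
  have a4 : φ' Δ.star = Δ.φ e := by
    simp [φ', swap_apply_of_ne_of_ne (hne _ n2.symm) (hne' _ n1)]
  have a5 : ∀ x, x ≠ b → x ≠ e → x ≠ Δ.star → φ' x = Δ.φ x := fun x c1 c2 c3 => by
    simp [φ', swap_apply_of_ne_of_ne c3 c2, swap_apply_of_ne_of_ne (hne _ c1) (hne' _ c3)]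
  let f : V ⊕ List (S × Bool) → V ⊕ List (S × Bool) := Sum.map id (· ++ [a])
  have hf : ∀ p c q, StepP Step p c q → StepP Step (f p) c (f q) := by
    rintro (p | p) c (q | q) h
    · exact h
    · exact h.elim
    · exact h.elim
    · change p = c :: q at h
      subst h; rfl
  let pos' : Δ.D → V ⊕ List (S × Bool) :=
    update (update (fun x => f (Δ.pos x)) e (.inr [a])) Δ.star (.inr [])
  have p1 : pos' e = .inr [a] := by simp [pos', n1]
  have p2 : pos' Δ.star = .inr [] := by simp [pos']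
  have p3 : ∀ x, x ≠ e → x ≠ Δ.star → pos' x = f (Δ.pos x) := fun x c1 c2 => by
    simp [pos', c1, c2]
  let el' : Δ.D → G := update Δ.el Δ.star (Δ.el (Δ.φ e))
  have q2 : el' Δ.star = Δ.el (Δ.φ e) := by simp [el']
  have q3 : ∀ x, x ≠ Δ.star → el' x = Δ.el x := fun x c => by simp [el', c]
  have q4 : Δ.el e = Δ.el Δ.star := by rw [← h0, Δ.hel, Δ.hstar]
  have q5 : ∀ x, x ≠ Δ.star → el' (φ' x) = Δ.el (Δ.φ x) := by
    intro x c3
    by_cases c1 : x = b
    · rw [c1, a2, q3 _ n1, h1, q4]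
    by_cases c2 : x = e
    · rw [c2, a3, q2]
    rw [a5 x c1 c2 c3, q3 _ (hne _ c1)]
  refine ⟨{ D := Δ.D
            φ := φ'
            α := Δ.α
            invol := Δ.invol
            star := Δ.star
            hstar := Δ.hstar
            pl := Pl_move Δ.φ.injective Δ.hstar (fun x => Δ.alpha_ne) h0 h1 n1 n2 a2 a3 a4 a5 Δ.pl
            lab := Δ.lab
            pos := pos'
            el := el'
            hlab := Δ.hlab
            hstep := ?_
            hdum := fun d h1 h2 => absurd h1 (hΔ.nodum d h2)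
            hx := ?_
            hy := p2
            hel := ?_
            hel2 := ?_ }⟩
  · intro x hx'
    have c3 : x ≠ Δ.star := by rintro rfl; exact hx' Δ.hstar
    have := hf _ _ _ (Δ.hstep x hx')
    by_cases c1 : x = b
    · subst c1
      rw [h1, hy] at this
      rw [a2, p1, p3 _ n2 n3]; exact this
    by_cases c2 : x = e
    · rw [c2, a3, p1, p2, ← e3]; rfl
    rw [a5 x c1 c2 c3, p3 _ c2 c3, p3 _ (hne' _ c3) (hne _ c1)]
    exact this
  · rw [a4, p3 _ (hne' _ n1) (hne _ n2.symm), e1]; rfl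
  · intro x
    by_cases c3 : x = Δ.star
    · rw [c3, a4, Δ.hstar, q2, q3 _ (hne _ n2.symm)]
    rw [q5 x c3, q3 _ (Δ.alpha_ne c3), Δ.hel]
  · intro x hx'
    have c3 : x ≠ Δ.star := by rintro rfl; exact hx' Δ.hstar
    rw [q5 x c3, q3 _ c3, Δ.hel2 x hx']

theorem fill_rot (hγ : ∀ a, γ (linv a) = (γ a)⁻¹) (u : List (S × Bool)) :
    ∀ v, Fill Step γ (u ++ v) → Fill Step γ (v ++ u) := by
  induction u with
  | nil => intro v h; simpa using h
  | cons a u ih =>
    intro v h
    have := fill_rot1 hγ (show Fill Step γ (a :: (u ++ v)) from h)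
    rw [List.append_assoc] at this
    simpa using ih _ this

theorem fill_ins' (hγ : ∀ a, γ (linv a) = (γ a)⁻¹)
    (hsym : ∀ v a v', Step v a v' → Step v' (linv a) v) {k : ℕ} (ℓ : Fin (k + 1) → S × Bool)
    (P : Fin (k + 1) → V) (E : Fin (k + 1) → G) (L : Fin (k + 1) → List (S × Bool))
    {w : List (S × Bool)}
    (hP : ∀ j, Step (P j) (ℓ j) (P (j + 1))) (hE : ∀ j, E (j + 1) = E j * γ (ℓ j)) (hE0 : E 0 = 1)
    (hL : ∀ j, j ≠ Fin.last k → L j = ℓ j :: L (j + 1)) (hL' : L (Fin.last k) = ℓ (Fin.last k) :: w)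
    (h : Fill Step γ w) : Fill Step γ (L 0) := by
  obtain ⟨Δ⟩ := h
  let φ₂ : Perm (Fin (k + 1) × Bool) :=
    { toFun := fun x => if x.2 then (x.1 + 1, true) else (x.1 - 1, false)
      invFun := fun x => if x.2 then (x.1 - 1, true) else (x.1 + 1, false)
      left_inv := by rintro ⟨j, b⟩; cases b <;> simp
      right_inv := by rintro ⟨j, b⟩; cases b <;> simp }
  have f1 : ∀ j, φ₂ (j, true) = (j + 1, true) := fun j => rfl
  have f2 : ∀ j, φ₂ (j, false) = (j - 1, false) := fun j => rfl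
  let α₂ : Fin (k + 1) × Bool → Fin (k + 1) × Bool := fun x => (x.1, !x.2)
  have i2 : Involutive α₂ := by rintro ⟨j, b⟩; simp [α₂]
  have H₂ : Pl φ₂ α₂ := by
    intro h hh
    refine ⟨fun x => if x.2 then h x else h (x.1 + 1, true), ?_, ?_⟩
    · rintro ⟨j, b⟩; cases b <;> simp [f1, f2, α₂]
    · rintro ⟨j, b⟩
      have := hh (j, true)
      cases b <;> simp [f1, f2, α₂] at this ⊢
      linarith
  let b₀ : Fin (k + 1) × Bool := (Fin.last k, true)
  let φ' : Perm (Δ.D ⊕ (Fin (k + 1) × Bool)) :=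
    Equiv.sumCongr Δ.φ φ₂ * Equiv.swap (Sum.inl Δ.star) (Sum.inr b₀)
  let α' : Δ.D ⊕ (Fin (k + 1) × Bool) → Δ.D ⊕ (Fin (k + 1) × Bool) := Sum.map Δ.α α₂
  have h3 : φ' (.inl Δ.star) = .inr (φ₂ b₀) := by simp [φ']
  have h4 : φ' (.inr b₀) = .inl (Δ.φ Δ.star) := by simp [φ']
  have h5 : ∀ x, x ≠ Δ.star → φ' (.inl x) = .inl (Δ.φ x) := fun x hx => by
    simp [φ', swap_apply_def, hx]
  have h6 : ∀ x, x ≠ b₀ → φ' (.inr x) = .inr (φ₂ x) := fun x hx => by
    simp [φ', swap_apply_def, hx]
  have h7 : φ₂ b₀ = (0, true) := by simp [b₀, f1]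
  have g0 : Δ.el (Δ.φ Δ.star) = Δ.el Δ.star := by rw [Δ.hel, Δ.hstar]
  let el' : Δ.D ⊕ (Fin (k + 1) × Bool) → G :=
    Sum.elim Δ.el (fun x => Δ.el Δ.star * if x.2 then E x.1 else E (x.1 + 1))
  have m1 : ∀ x, el' (φ' (.inl x)) = Δ.el (Δ.φ x) := by
    intro x
    by_cases c : x = Δ.star
    · rw [c, h3, h7, g0]; simp [el', hE0]
    · rw [h5 x c]; rfl
  have m2 : ∀ x, el' (φ' (.inr x)) = el' (.inr (φ₂ x)) := by
    intro x
    by_cases c : x = b₀
    · rw [c, h4, h7]; simp [el', hE0, g0]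
    · rw [h6 x c]
  have nd : ∀ x, α' (.inl x) ≠ .inl x → Δ.α x ≠ x := fun x h hc => h (by simp [α', hc])
  refine ⟨{ D := Δ.D ⊕ (Fin (k + 1) × Bool)
            φ := φ'
            α := α'
            invol := ?_
            star := .inl Δ.star
            hstar := by simp [α', Δ.hstar]
            pl := Pl_join φ₂.bijective i2.bijective Δ.hstar (fun _ => rfl) (fun _ => rfl)
              h3 h4 h5 h6 Δ.pl H₂
            lab := Sum.elim Δ.lab (fun x => if x.2 then ℓ x.1 else linv (ℓ x.1))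
            pos := Sum.elim Δ.pos (fun x => if x.2 then .inr (L x.1) else .inl (P (x.1 + 1)))
            el := el'
            hlab := ?_
            hstep := ?_
            hdum := ?_
            hx := by rw [h3, h7]; rfl
            hy := Δ.hy
            hel := ?_
            hel2 := ?_ }⟩
  · rintro (x | x)
    · simp [α', Δ.invol x]
    · simp [α', i2 x]
  · rintro (x | ⟨j, b⟩) hx
    · exact Δ.hlab x (nd x hx)
    · cases b <;> simp [α', α₂]
  · rintro (x | ⟨j, b⟩) hx
    · rw [h5 x (by rintro rfl; exact nd _ hx Δ.hstar)]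
      exact Δ.hstep x (nd x hx)
    · cases b
      · rw [h6 _ (by simp [b₀]), f2]
        simpa [StepP] using hsym _ _ _ (hP j)
      · by_cases c : j = Fin.last k
        · subst c
          rw [h4]
          simp only [Sum.elim_inr, Sum.elim_inl, if_true, Δ.hx]
          exact hL'
        · rw [h6 _ (by simpa [b₀] using c), f1]
          exact hL j c
  · rintro (x | ⟨j, b⟩) hx hs
    · have c : x ≠ Δ.star := fun hc => hs (by rw [hc])
      rw [h5 x c]
      exact Δ.hdum x (Sum.inl.inj hx) c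
    · cases b <;> simp [α', α₂] at hx
  · rintro (x | ⟨j, b⟩)
    · rw [m1, Δ.hel]; rfl
    · rw [m2]
      cases b <;> simp [α', α₂, f1, f2, el']
  · rintro (x | ⟨j, b⟩) hx
    · rw [m1, Δ.hel2 x (nd x hx)]; rfl
    · rw [m2]
      cases b
      · simp only [f2, el', Sum.elim_inr, Bool.false_eq_true, if_false, sub_add_cancel]
        rw [hE, hγ]; simp [mul_assoc]
      · simp [f1, el', hE, mul_assoc]

theorem Wk.exists_fun {v v' : V} {r : List (S × Bool)} (h : Wk Step v r v') :
    ∃ p : ℕ → V, p 0 = v ∧ p r.length = v' ∧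
      ∀ j (hj : j < r.length), Step (p j) r[j] (p (j + 1)) := by
  induction h with
  | nil v => exact ⟨fun _ => v, rfl, rfl, fun j hj => absurd hj (by simp)⟩
  | @cons v v' v'' a l hs _ ih =>
    obtain ⟨p, p0, p1, p2⟩ := ih
    refine ⟨fun n => Nat.casesOn n v p, rfl, p1, fun j hj => ?_⟩
    cases j with
    | zero => simpa [p0] using hs
    | succ j => exact p2 j (by simpa using hj)

theorem fill_ins (hγ : ∀ a, γ (linv a) = (γ a)⁻¹)
    (hsym : ∀ v a v', Step v a v' → Step v' (linv a) v) {v : V} {r w : List (S × Bool)}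
    (hr : Wk Step v r v) (h1 : (r.map γ).prod = 1) (h : Fill Step γ w) :
    Fill Step γ (r ++ w) := by
  by_cases h0 : r = []
  · subst h0; exact h
  obtain ⟨k, hk⟩ : ∃ k, r.length = k + 1 :=
    Nat.exists_eq_succ_of_ne_zero (by simpa using h0)
  obtain ⟨p, p0, p1, p2⟩ := hr.exists_fun
  have lt : ∀ j : Fin (k + 1), j.1 < r.length := fun j => by rw [hk]; exact j.2
  have := fill_ins' hγ hsym (k := k) (fun j => r[j.1]'(lt j)) (fun j => p j.1)
    (fun j => ((r.take j.1).map γ).prod) (fun j => r.drop j.1 ++ w) (w := w) ?_ ?_ (by simp) ?_ ?_ h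
  · simpa using this
  · intro j
    have := p2 j.1 (lt j)
    rw [Fin.val_add_one]
    split_ifs with c
    · subst c
      have e : p ((Fin.last k).1 + 1) = p 0 := by rw [Fin.val_last, ← hk, p1, p0]
      rw [e] at this
      exact this
    · exact this
  · intro j
    have e : ((r.take (j.1 + 1)).map γ).prod = ((r.take j.1).map γ).prod * γ (r[j.1]'(lt j)) := by
      rw [List.take_succ_eq_append_getElem (lt j), List.map_append, List.prod_append]; simp
    rw [Fin.val_add_one]
    split_ifs with c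
    · rw [← e, c, Fin.val_last, ← hk, List.take_length, h1]; simp
    · exact e
  · intro j c
    rw [Fin.val_add_one, if_neg c, List.drop_eq_getElem_cons (lt j)]; rfl
  · have e : r.drop ((Fin.last k).1 + 1) = [] := by rw [Fin.val_last, ← hk, List.drop_length]
    rw [List.drop_eq_getElem_cons (lt _), e]; rfl

theorem Wk.append {v v' v'' : V} {r r' : List (S × Bool)} (h : Wk Step v r v')
    (h' : Wk Step v' r' v'') : Wk Step v (r ++ r') v'' := by
  induction h with
  | nil v => exact h'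
  | cons hs _ ih => exact .cons hs (ih h')

theorem Wk.rev (hsym : ∀ v a v', Step v a v' → Step v' (linv a) v) {v v' : V}
    {r : List (S × Bool)} (h : Wk Step v r v') : Wk Step v' (FreeGroup.invRev r) v := by
  induction h with
  | nil v => exact .nil v
  | cons hs _ ih =>
    rw [FreeGroup.invRev_cons]
    exact ih.append (.cons (hsym _ _ _ hs) (.nil _))

/-- the relators -/
def Rels (Step : V → S × Bool → V → Prop) : Set (FreeGroup S) :=
  {g | ∃ v r, Wk Step v r v ∧ g = FreeGroup.mk r}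

/-- the graphical group -/
abbrev Gp (Step : V → S × Bool → V → Prop) : Type :=
  FreeGroup S ⧸ Subgroup.normalClosure (Rels Step)

/-- the generators -/
def gen (Step : V → S × Bool → V → Prop) (a : S × Bool) : Gp Step :=
  QuotientGroup.mk (FreeGroup.mk [a])

theorem gen_linv (a : S × Bool) : gen Step (linv a) = (gen Step a)⁻¹ := by
  rw [gen, gen, ← QuotientGroup.mk_inv, FreeGroup.inv_mk]; rfl

theorem gen_prod (l : List (S × Bool)) :
    (l.map (gen Step)).prod = QuotientGroup.mk (FreeGroup.mk l) := by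
  induction l with
  | nil => rfl
  | cons a l ih => rw [List.map_cons, List.prod_cons, ih, gen, ← QuotientGroup.mk_mul]; rfl

theorem Wk.gen_prod {v : V} {r : List (S × Bool)} (h : Wk Step v r v) :
    (r.map (gen Step)).prod = 1 := by
  rw [P194.gen_prod, QuotientGroup.eq_one_iff]
  exact Subgroup.subset_normalClosure ⟨v, r, h, rfl⟩

theorem vanKampen [Nonempty S] (hsym : ∀ v a v', Step v a v' → Step v' (linv a) v)
    (hsurj : ∀ a, ∃ v v', Step v a v') {w : List (S × Bool)}
    (hw : (w.map (gen Step)).prod = 1) : Fill Step (gen Step) w := by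
  have hγ := @gen_linv S V Step
  have st : ∀ l l', FreeGroup.Red.Step l l' →
      (Fill Step (gen Step) l ↔ Fill Step (gen Step) l') := by
    rintro _ _ @⟨l₁, l₂, x, b⟩
    constructor
    · intro h
      have := fill_rot hγ _ _ h
      exact fill_rot hγ _ _ (fill_fold hγ (a := (x, b)) (w := l₂ ++ l₁) this)
    · intro h
      obtain ⟨v, v', hv⟩ := hsurj (x, b)
      have hw : Wk Step v [(x, b), linv (x, b)] v := .cons hv (.cons (hsym _ _ _ hv) (.nil _))
      have := fill_ins hγ hsym hw hw.gen_prod (fill_rot hγ _ _ h)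
      exact fill_rot hγ ((x, b) :: (x, !b) :: l₂) l₁ this
  have rd : ∀ l l', FreeGroup.Red l l' →
      (Fill Step (gen Step) l ↔ Fill Step (gen Step) l') := by
    intro l l' h
    induction h with
    | refl => rfl
    | tail _ h ih => exact ih.trans (st _ _ h)
  have eq : ∀ l l', FreeGroup.mk l = FreeGroup.mk l' →
      Fill Step (gen Step) l → Fill Step (gen Step) l' := by
    intro l l' h hl
    obtain ⟨c, h1, h2⟩ := FreeGroup.Red.exact.1 h
    exact (rd _ _ h2).2 ((rd _ _ h1).1 hl)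
  let T : FreeGroup S → Prop := fun g => ∀ l, FreeGroup.mk l = g → Fill Step (gen Step) l
  have hT : ∀ l, Fill Step (gen Step) l → T (FreeGroup.mk l) := fun l hl l' h =>
    eq _ _ h.symm hl
  have cj : ∀ g c, T g → T (c * g * c⁻¹) := by
    rintro ⟨l⟩ ⟨u⟩ h
    have h1 : Fill Step (gen Step) (FreeGroup.invRev u ++ (u ++ l)) := by
      apply h
      rw [← FreeGroup.mul_mk, ← FreeGroup.mul_mk, ← FreeGroup.inv_mk, inv_mul_cancel_left]; rfl
    exact hT _ (fill_rot hγ _ _ h1)
  have cj' : ∀ g c, T (c * g * c⁻¹) → T g := fun g c h => by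
    have := cj _ c⁻¹ h
    simpa [mul_assoc] using this
  let H : Subgroup (FreeGroup S) :=
    { carrier := {g | ∀ t, T t ↔ T (g * t)}
      mul_mem' := fun {a b} ha hb t => by rw [mul_assoc]; exact (hb t).trans (ha _)
      one_mem' := fun t => by rw [one_mul]
      inv_mem' := fun {a} ha t => by
        have := ha (a⁻¹ * t)
        rw [mul_inv_cancel_left] at this
        exact this.symm }
  haveI : H.Normal := ⟨fun g hg c t => by
    have e : c * g * c⁻¹ * t = c * (g * (c⁻¹ * t * c⁻¹⁻¹)) * c⁻¹ := by group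
    rw [e]
    exact ⟨fun h => cj _ _ ((hg _).1 (cj _ _ h)), fun h => cj' _ _ ((hg _).2 (cj' _ _ h))⟩⟩
  have ins : ∀ v r, Wk Step v r v → ∀ t, T t → T (FreeGroup.mk r * t) := by
    rintro v r hr ⟨l⟩ h
    exact hT _ (fill_ins hγ hsym hr hr.gen_prod (h l rfl))
  have hle : Subgroup.normalClosure (Rels Step) ≤ H := by
    apply Subgroup.normalClosure_le_normal
    rintro _ ⟨v, r, hr, rfl⟩ t
    refine ⟨ins v r hr t, fun h => ?_⟩
    have := ins v _ (hr.rev hsym) _ h
    rwa [← FreeGroup.inv_mk, inv_mul_cancel_left] at this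
  rw [gen_prod, QuotientGroup.eq_one_iff] at hw
  have := (hle hw 1).1 (hT [] fill_nil)
  exact this w (by rw [mul_one])

end Vale.Agent.P194
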