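import Vale.Agent.P194.SC
import Vale.Agent.P194.Code

/-! The labelled graph. -/

namespace Vale.Agent.P194

open Equiv Function

theorem exists_free (K : Type) [Field K] [Fintype K] (g : ℕ) :
    ∃ (U : Type) (_ : Group U) (_ : Fintype U) (x : Bool → K → U),
      Fintype.card U ≤ Fintype.card K ^ ((g + 2) * (g + 2)) ∧
      (∀ b a a', x b (a + a') = x b a * x b a') ∧
      ∀ (μ : ℕ → U) (sd : ℕ → Bool) (a : ℕ → K) (k : ℕ), 0 < k → k ≤ g →
        (∀ i, i + 1 < k → sd (i + 1) = !sd i) →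
        (∀ i < k, a i ≠ 0 ∧ μ (i + 1) = μ i * x (sd i) (a i)) → μ k ≠ μ 0 := by
  classical
  let X : Bool → Matrix (Fin (g + 2)) (Fin (g + 2)) K := fun b l j =>
    if l.1 + 1 = j.1 ∧ Nat.bodd l.1 = b then 1 else 0
  have hX : ∀ b, X b * X b = 0 := by
    intro b
    ext l j
    rw [Matrix.mul_apply]
    refine Finset.sum_eq_zero fun u _ => ?_
    simp only [X]
    split_ifs with c1 c2
    · exfalso
      have := c2.2
      rw [← c1.1, Nat.bodd_succ, c1.2] at this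
      simp at this
    all_goals simp
  have hm : ∀ b (a a' : K), (1 + a • X b) * (1 + a' • X b) = 1 + (a + a') • X b := by
    intro b a a'
    simp only [mul_add, add_mul, mul_one, one_mul, Matrix.smul_mul, Matrix.mul_smul, hX,
      smul_zero, add_zero, add_smul]
    abel
  let x : Bool → K → (Matrix (Fin (g + 2)) (Fin (g + 2)) K)ˣ := fun b a =>
    ⟨1 + a • X b, 1 + (-a) • X b, by rw [hm]; simp, by rw [hm]; simp⟩
  refine ⟨(Matrix (Fin (g + 2)) (Fin (g + 2)) K)ˣ, inferInstance, inferInstance, x, ?_,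
    fun b a a' => Units.ext (hm b a a').symm, ?_⟩
  · refine (Fintype.card_le_of_injective _ Units.val_injective).trans ?_
    change Fintype.card (Fin (g + 2) → Fin (g + 2) → K) ≤ _
    simp only [Fintype.card_fun, Fintype.card_fin, pow_mul, le_refl]
  · intro μ sd a k hk hg hsd hμ hc
    let r : Fin (g + 2) := if sd 0 then 1 else 0
    have hr : r.1 ≤ 1 ∧ Nat.bodd r.1 = sd 0 := by
      simp only [r]; cases sd 0 <;> simp
    have key : ∀ i ≤ k, (∀ j : Fin (g + 2), r.1 + i < j.1 → ((μ 0)⁻¹ * μ i).1 r j = 0) ∧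
        (∀ j : Fin (g + 2), r.1 + i = j.1 → ((μ 0)⁻¹ * μ i).1 r j ≠ 0) ∧
        (i < k → Nat.bodd (r.1 + i) = sd i) := by
      intro i
      induction i with
      | zero =>
        intro _
        refine ⟨fun j hj => ?_, fun j hj => ?_, fun _ => hr.2⟩
        · rw [inv_mul_cancel, Units.val_one, Matrix.one_apply_ne (by rintro rfl; omega)]
        · obtain rfl : r = j := Fin.ext hj
          simp
      | succ i ih =>
        intro hi
        obtain ⟨i1, i2, i3⟩ := ih (by omega)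
        obtain ⟨a0, e⟩ := hμ i (by omega)
        have e2 : ∀ j, ((μ 0)⁻¹ * μ (i + 1)).1 r j = ((μ 0)⁻¹ * μ i).1 r j +
            a i * ∑ l, ((μ 0)⁻¹ * μ i).1 r l * X (sd i) l j := by
          intro j
          rw [e, ← mul_assoc, Units.val_mul]
          change (((μ 0)⁻¹ * μ i).1 * (1 + a i • X (sd i))) r j = _
          rw [mul_add, mul_one, Matrix.mul_smul, Matrix.add_apply, Matrix.smul_apply,
            Matrix.mul_apply, smul_eq_mul]
        refine ⟨fun j hj => ?_, fun j hj => ?_, fun h => ?_⟩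
        · rw [e2, i1 j (by omega), Finset.sum_eq_zero, mul_zero, add_zero]
          intro l _
          simp only [X]
          split_ifs with c
          · rw [i1 l (by omega), zero_mul]
          · rw [mul_zero]
        · have lt : r.1 + i < g + 2 := by have := j.2; omega
          rw [e2, i1 j (by omega), zero_add, Finset.sum_eq_single ⟨r.1 + i, lt⟩]
          · simp only [X]
            rw [if_pos ⟨by omega, i3 (by omega)⟩, mul_one]
            exact mul_ne_zero a0 (i2 _ rfl)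
          · intro l _ hl
            simp only [X]
            rw [if_neg (fun c => hl (Fin.ext (by simp only; omega))), mul_zero]
          · simp
        · rw [← add_assoc, Nat.bodd_succ, i3 (by omega), hsd i h]
    have lt : r.1 + k < g + 2 := by omega
    have := (key k le_rfl).2.1 ⟨r.1 + k, lt⟩ rfl
    rw [hc, inv_mul_cancel, Units.val_one, Matrix.one_apply_ne] at this
    · exact this rfl
    · intro h
      have := congrArg Fin.val h
      simp only at this
      omega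

/-- the data of the construction -/
structure Data (K : Type) [Field K] (m g : ℕ) where
  U : Type
  [grp : Group U]
  [dec : DecidableEq U]
  H : Type
  x : Bool → K → U
  x_add : ∀ b a a', x b (a + a') = x b a * x b a'
  free : ∀ (μ : ℕ → U) (sd : ℕ → Bool) (a : ℕ → K) (k : ℕ), 0 < k → k ≤ g →
    (∀ i, i + 1 < k → sd (i + 1) = !sd i) →
    (∀ i < k, a i ≠ 0 ∧ μ (i + 1) = μ i * x (sd i) (a i)) → μ k ≠ μ 0
  β : Option (K × (Fin m → K)) → Bool → H
  β_inj : ∀ b b' ε, β b ε = β b' ε → β b (!ε) = β b' (!ε) → b = b'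
  dir : H × U × K → Fin m → K
  dir_inj : Injective dir
  κ : Bool → Perm (K × (Fin m → K))
  lam : Bool → K × (Fin m → K) → K
  lam_ne : ∀ ε s, lam ε s ≠ 0
  w : Option (K × (Fin m → K)) → K × (Fin m → K) → K

attribute [instance] Data.grp Data.dec

namespace Data

variable {K : Type} [Field K] [DecidableEq K] {m g : ℕ} (Γ : Data K m g)

/-- vertices -/
abbrev V : Type := Bool × Option (K × (Fin m → K)) × Option (Γ.U × K × (Fin m → K))

/-- matching of slots -/
def π (b : Option (K × (Fin m → K))) (s : K × (Fin m → K)) : Perm (Option (Γ.U × K)) :=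
  Equiv.swap none (some (1, Γ.w b s))

/-- the vertex of a slot -/
def vert (ε : Bool) (b : Option (K × (Fin m → K))) (s : K × (Fin m → K)) :
    Option (Γ.U × K) → Γ.V
  | none => (ε, b, none)
  | some (μ, c) => (ε, b, some (μ * (Γ.x ε (Γ.κ ε s).1)⁻¹, c * (Γ.lam ε s)⁻¹,
      (Γ.κ ε s).2 - (Γ.κ ε s).1 •
        Γ.dir (Γ.β b ε, μ * (Γ.x ε (Γ.κ ε s).1)⁻¹, c * (Γ.lam ε s)⁻¹)))

/-- edges -/
def Step (v : Γ.V) (a : (K × (Fin m → K)) × Bool) (v' : Γ.V) : Prop :=
  ∃ b k, v = Γ.vert a.2 b a.1 k ∧ v' = Γ.vert (!a.2) b a.1 (Γ.π b a.1 k)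

/-- incidence -/
def On (v : Γ.V) (s : K × (Fin m → K)) : Prop :=
  ∀ i c y, v.2.2 = some (i, c, y) →
    (Γ.κ v.1 s).2 = y + (Γ.κ v.1 s).1 • Γ.dir (Γ.β v.2.1 v.1, i, c)

/-- group value of an edge -/
def M (v : Γ.V) (s : K × (Fin m → K)) : Γ.U :=
  match v.2.2 with
  | none => 1
  | some (i, _, _) => i * Γ.x v.1 (Γ.κ v.1 s).1

/-- weights of the edges at a vertex -/
def star (v : Γ.V) (s : K × (Fin m → K)) : K :=
  match v.2.2 with
  | none => Γ.w v.2.1 s
  | some (i, c, y) => c * (Γ.lam v.1 s * line y (Γ.dir (Γ.β v.2.1 v.1, i, c)) (Γ.κ v.1 s))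

theorem vert_fst (ε b s k) : (Γ.vert ε b s k).1 = ε := by
  rcases k with _ | ⟨μ, c⟩ <;> rfl

theorem vert_snd (ε b s k) : (Γ.vert ε b s k).2.1 = b := by
  rcases k with _ | ⟨μ, c⟩ <;> rfl

theorem vert_none (ε b s k) : (Γ.vert ε b s k).2.2 = none ↔ k = none := by
  rcases k with _ | ⟨μ, c⟩ <;> simp [vert]

theorem vert_inj {ε b s k k'} (h : Γ.vert ε b s k = Γ.vert ε b s k') : k = k' := by
  rcases k with _ | ⟨μ, c⟩ <;> rcases k' with _ | ⟨μ', c'⟩
  · rfl
  · simp [vert] at h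
  · simp [vert] at h
  · simp only [vert, Prod.mk.injEq, Option.some.injEq, true_and, mul_left_inj] at h
    rw [h.1, mul_right_cancel₀ (inv_ne_zero (Γ.lam_ne _ _)) h.2.1]

theorem vert_on (ε b s k) : Γ.On (Γ.vert ε b s k) s := by
  intro i c y h
  rcases k with _ | ⟨μ, c⟩
  · simp [vert] at h
  · simp only [vert, Option.some.injEq, Prod.mk.injEq] at h ⊢
    obtain ⟨rfl, rfl, rfl⟩ := h
    simp

theorem vert_M (ε b s k) : Γ.M (Γ.vert ε b s k) s = Option.elim k 1 Prod.fst := by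
  rcases k with _ | ⟨μ, c⟩ <;> simp [vert, M]

theorem vert_star (ε b s k) : Γ.star (Γ.vert ε b s k) s = Option.elim k (Γ.w b s) Prod.snd := by
  rcases k with _ | ⟨μ, c⟩ <;> simp [vert, star, line, Γ.lam_ne]

theorem π_cases (b s k) : (k = none ∧ Γ.π b s k = some (1, Γ.w b s)) ∨
    (k = some (1, Γ.w b s) ∧ Γ.π b s k = none) ∨ (k ≠ none ∧ Γ.π b s k = k) := by
  by_cases c1 : k = none
  · left; simp [c1, π]
  by_cases c2 : k = some (1, Γ.w b s)
  · right; left; simp [c2, π]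
  · right; right; exact ⟨c1, swap_apply_of_ne_of_ne c1 c2⟩

variable {Γ}

theorem Step.props {v a v'} (h : Γ.Step v a v') :
    v.1 = a.2 ∧ v'.1 = !a.2 ∧ v'.2.1 = v.2.1 ∧ Γ.On v a.1 ∧ Γ.On v' a.1 ∧
      Γ.M v' a.1 = Γ.M v a.1 ∧ Γ.star v' a.1 = Γ.star v a.1 ∧ (v.2.2 = none → v'.2.2 ≠ none) := by
  obtain ⟨b, k, rfl, rfl⟩ := h
  refine ⟨vert_fst .., vert_fst .., by rw [vert_snd, vert_snd], Γ.vert_on _ _ _ _,
    Γ.vert_on _ _ _ _, ?_, ?_, ?_⟩
  · rw [vert_M, vert_M]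
    rcases Γ.π_cases b a.1 k with h | h | h <;> rw [h.2]
    · rw [h.1]; rfl
    · rw [h.1]; rfl
  · rw [vert_star, vert_star]
    rcases Γ.π_cases b a.1 k with h | h | h <;> rw [h.2]
    · rw [h.1]; rfl
    · rw [h.1]; rfl
  · rw [Ne, vert_none, vert_none]
    rintro rfl
    simp [π]

theorem Step.sym {v a v'} (h : Γ.Step v a v') : Γ.Step v' (linv a) v := by
  obtain ⟨b, k, rfl, rfl⟩ := h
  exact ⟨b, _, rfl, by simp [linv, π]⟩

theorem Step.det {v a v' v''} (h : Γ.Step v a v') (h' : Γ.Step v a v'') : v' = v'' := by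
  obtain ⟨b, k, rfl, rfl⟩ := h
  obtain ⟨b', k', e, rfl⟩ := h'
  obtain rfl : b = b' := by simpa [vert_snd] using congrArg (fun v => v.2.1) e
  rw [Γ.vert_inj e]

theorem bal {v : Γ.V} {s} (h : Γ.star v s ≠ 0) : ∃ v', Γ.Step v (s, v.1) v' := by
  obtain ⟨ε, b, _ | ⟨i, c, y⟩⟩ := v
  · exact ⟨_, b, none, rfl, rfl⟩
  · refine ⟨_, b, some (i * Γ.x ε (Γ.κ ε s).1, c * Γ.lam ε s), ?_, rfl⟩
    have : (Γ.κ ε s).2 = y + (Γ.κ ε s).1 • Γ.dir (Γ.β b ε, i, c) := by
      by_contra hc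
      exact h (by simp [star, line, hc])
    simp [vert, Γ.lam_ne, this]

theorem On.ne {v : Γ.V} {s s'} (h : Γ.On v s) (h' : Γ.On v s') (hs : s ≠ s')
    (hv : v.2.2 ≠ none) : (Γ.κ v.1 s).1 ≠ (Γ.κ v.1 s').1 := by
  obtain ⟨⟨i, c, y⟩, e⟩ := Option.ne_none_iff_exists'.1 hv
  intro hc
  apply hs
  apply (Γ.κ v.1).injective
  refine Prod.ext hc ?_
  rw [h i c y e, h' i c y e, hc]

theorem turn {v : Γ.V} {s s'} (h : Γ.On v s) (h' : Γ.On v s') (hs : s ≠ s')
    (hv : v.2.2 ≠ none) : ∃ a, a ≠ 0 ∧ Γ.M v s' = Γ.M v s * Γ.x v.1 a := by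
  refine ⟨(Γ.κ v.1 s').1 - (Γ.κ v.1 s).1, sub_ne_zero.2 (h.ne h' hs hv).symm, ?_⟩
  obtain ⟨⟨i, c, y⟩, e⟩ := Option.ne_none_iff_exists'.1 hv
  simp only [M, e]
  rw [mul_assoc, ← Γ.x_add, add_sub_cancel]

theorem two {v v' : Γ.V} {s s'} (h : Γ.On v s) (h' : Γ.On v s') (k : Γ.On v' s) (k' : Γ.On v' s')
    (hs : s ≠ s') (hv : v.2.2 ≠ none) (hv' : v'.2.2 ≠ none) (e : v.1 = v'.1) :
    Γ.β v.2.1 v.1 = Γ.β v'.2.1 v.1 ∧ v.2.2 = v'.2.2 := by
  have ne := h.ne h' hs hv
  obtain ⟨⟨i, c, y⟩, e1⟩ := Option.ne_none_iff_exists'.1 hv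
  obtain ⟨⟨i', c', y'⟩, e2⟩ := Option.ne_none_iff_exists'.1 hv'
  have a1 := h i c y e1
  have a2 := h' i c y e1
  have a3 := k i' c' y' e2
  have a4 := k' i' c' y' e2
  rw [← e] at a3 a4
  have a5 : Γ.dir (Γ.β v.2.1 v.1, i, c) = Γ.dir (Γ.β v'.2.1 v.1, i', c') := by
    apply smul_right_injective _ (sub_ne_zero.2 ne)
    dsimp only
    rw [sub_smul, sub_smul]
    linear_combination (exp := 1) -a1 + a2 + a3 - a4
  have a6 : y = y' := by
    rw [a1, a5] at a3
    exact add_right_cancel a3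
  have := Γ.dir_inj a5
  simp only [Prod.mk.injEq] at this
  rw [e1, e2, this.2.1, this.2.2, a6]
  exact ⟨this.1, rfl⟩

theorem lab_ne {u v v' : Γ.V} {a a'} (h : Γ.Step u a v) (h' : Γ.Step v a' v')
    (hn : a' ≠ linv a) : a.1 ≠ a'.1 := by
  intro hc
  apply hn
  exact Prod.ext hc.symm (h'.props.1.symm.trans h.props.2.1)

theorem run (p : ℕ → Γ.V) (ℓ : ℕ → (K × (Fin m → K)) × Bool) (k : ℕ) (hk : 0 < k) (hg : k ≤ g)
    (h1 : ∀ i ≤ k, Γ.Step (p i) (ℓ i) (p (i + 1))) (h2 : ∀ i < k, ℓ (i + 1) ≠ linv (ℓ i))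
    (h3 : ∀ i < k, (p (i + 1)).2.2 ≠ none) : Γ.M (p k) (ℓ k).1 ≠ Γ.M (p 0) (ℓ 0).1 := by
  have : ∀ i, ∃ a, i < k → a ≠ 0 ∧
      Γ.M (p (i + 1)) (ℓ (i + 1)).1 = Γ.M (p i) (ℓ i).1 * Γ.x (p (i + 1)).1 a := by
    intro i
    by_cases hi : i < k
    · have s1 := h1 i (by omega)
      have s2 := h1 (i + 1) (by omega)
      obtain ⟨a, a1, a2⟩ := turn s1.props.2.2.2.2.1 s2.props.2.2.2.1 (lab_ne s1 s2 (h2 i hi))
        (h3 i hi)
      exact ⟨a, fun _ => ⟨a1, by rw [a2, s1.props.2.2.2.2.2.1]⟩⟩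
    · exact ⟨0, fun h => absurd h hi⟩
  choose a ha using this
  refine Γ.free (fun i => Γ.M (p i) (ℓ i).1) (fun i => (p (i + 1)).1) a k hk hg (fun i hi => ?_) ha
  have s := (h1 (i + 1) (by omega)).props
  rw [s.2.1, s.1]

theorem spacing (n : ℕ) (p : ℕ → Γ.V) (ℓ : ℕ → (K × (Fin m → K)) × Bool) (hn : 0 < n)
    (hg : n ≤ g) (h1 : ∀ i < n, Γ.Step (p i) (ℓ i) (p (i + 1)))
    (h2 : ∀ i, i + 1 < n → ℓ (i + 1) ≠ linv (ℓ i))
    (h3 : (p 0).2.2 = none) (h4 : (p n).2.2 = none) : False := by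
  classical
  have hex : ∃ j, (p (j + 1)).2.2 = none := ⟨n - 1, by rwa [Nat.sub_add_cancel hn]⟩
  have j1 := Nat.find_spec hex
  have j2 : Nat.find hex ≤ n - 1 := Nat.find_min' hex (by rwa [Nat.sub_add_cancel hn])
  have j3 : ∀ i < Nat.find hex, (p (i + 1)).2.2 ≠ none := fun i hi => Nat.find_min hex hi
  generalize Nat.find hex = j at j1 j2 j3
  rcases Nat.eq_zero_or_pos j with rfl | hj
  · exact (h1 0 hn).props.2.2.2.2.2.2.2 h3 j1
  · refine run p ℓ j hj (by omega) (fun i hi => h1 i (by omega)) (fun i hi => h2 i (by omega))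
      j3 ?_
    rw [← (h1 j (by omega)).props.2.2.2.2.2.1]
    simp only [M, j1, h3]

variable (Γ)

theorem sc (hg : 5 ≤ g) : SCHyp Γ.Step g where
  sym := fun _ _ _ => Step.sym
  det := fun _ _ _ _ => Step.det
  surj := fun a => ⟨_, _, none, none, rfl, rfl⟩
  piece := by
    intro p q ℓ hp hq hℓ
    have sp : ∀ p : ℕ → Γ.V, (∀ i < 7, Γ.Step (p i) (ℓ i) (p (i + 1))) →
        ∀ i j, i < j → j ≤ 6 → 1 ≤ i → (p i).2.2 = none → (p j).2.2 = none → False := by
      intro p hp i j c1 c2 c3 c4 c5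
      refine spacing (j - i) (fun u => p (i + u)) (fun u => ℓ (i + u)) (by omega) (by omega)
        (fun u hu => hp _ (by omega)) (fun u hu => hℓ (i + u) (by omega)) c4 ?_
      rwa [Nat.add_sub_cancel' c1.le]
    have back : ∀ j ≤ 7, p j = q j → p 0 = q 0 := by
      intro j
      induction j with
      | zero => exact fun _ h => h
      | succ j ih =>
        intro hj h
        refine ih (by omega) ?_
        have a1 := (hp j (by omega)).sym
        have a2 := (hq j (by omega)).sym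
        rw [h] at a1
        exact a1.det a2
    have tw : ∀ j, j < 6 → (p (j + 1)).2.2 ≠ none → (q (j + 1)).2.2 ≠ none →
        Γ.β (p (j + 1)).2.1 (p (j + 1)).1 = Γ.β (q (j + 1)).2.1 (p (j + 1)).1 ∧
          (p (j + 1)).2.2 = (q (j + 1)).2.2 := by
      intro j hj c1 c2
      have a1 := hp j (by omega)
      have a2 := hp (j + 1) (by omega)
      have a3 := hq j (by omega)
      have a4 := hq (j + 1) (by omega)
      exact two a1.props.2.2.2.2.1 a2.props.2.2.2.1 a3.props.2.2.2.2.1 a4.props.2.2.2.1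
        (lab_ne a1 a2 (hℓ j hj)) c1 c2 (a2.props.1.trans a4.props.1.symm)
    have fin : ∀ j, j < 5 → (p (j + 1)).2.2 ≠ none → (q (j + 1)).2.2 ≠ none →
        (p (j + 2)).2.2 ≠ none → (q (j + 2)).2.2 ≠ none → p 0 = q 0 := by
      intro j hj c1 c2 c3 c4
      obtain ⟨b1, b2⟩ := tw j (by omega) c1 c2
      obtain ⟨b3, -⟩ := tw (j + 1) (by omega) c3 c4
      have a2 := (hp (j + 1) (by omega)).props
      have a4 := (hq (j + 1) (by omega)).props
      rw [a2.2.2.1, a4.2.2.1, a2.2.1, ← a2.1] at b3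
      exact back (j + 1) (by omega)
        (Prod.ext (a2.1.trans a4.1.symm) (Prod.ext (Γ.β_inj _ _ _ b1 b3) b2))
    by_contra hc
    have f : ∀ j, j < 5 → ∃ i, j + 1 ≤ i ∧ i ≤ j + 2 ∧ ((p i).2.2 = none ∨ (q i).2.2 = none) := by
      intro j hj
      by_contra hn
      push Not at hn
      exact hc (fin j hj (hn _ le_rfl (by omega)).1 (hn _ le_rfl (by omega)).2
        (hn _ (by omega) le_rfl).1 (hn _ (by omega) le_rfl).2)
    obtain ⟨i1, a1, a2, a3⟩ := f 0 (by omega)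
    obtain ⟨i2, b1, b2, b3⟩ := f 2 (by omega)
    obtain ⟨i3, c1, c2, c3⟩ := f 4 (by omega)
    have P := sp p hp
    have Q := sp q hq
    rcases a3 with a3 | a3 <;> rcases b3 with b3 | b3 <;> rcases c3 with c3 | c3
    all_goals first
      | exact P i1 i2 (by omega) (by omega) (by omega) a3 b3
      | exact P i1 i3 (by omega) (by omega) (by omega) a3 c3
      | exact P i2 i3 (by omega) (by omega) (by omega) b3 c3
      | exact Q i1 i2 (by omega) (by omega) (by omega) a3 b3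
      | exact Q i1 i3 (by omega) (by omega) (by omega) a3 c3
      | exact Q i2 i3 (by omega) (by omega) (by omega) b3 c3
  girth := by
    intro p ℓ n hn h1 h2 h3 h4
    by_contra hc
    by_cases c : ∃ j, (p j).2.2 = none
    · obtain ⟨j, hj⟩ := c
      exact spacing n (fun u => p (j + u)) (fun u => ℓ (j + u)) hn (by omega)
        (fun u _ => h1 _) (fun u _ => h2 _) hj (by rw [h3, hj])
    · push Not at c
      refine run p ℓ n hn (by omega) (fun i _ => h1 i) (fun i _ => h2 i) (fun i _ => c _) ?_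
      have := h3 0
      rw [zero_add] at this
      rw [this, h4]

end Data

end Vale.Agent.P194
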