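import Mathlib

/-! Planar maps through vanishing of the first rational cohomology. -/

namespace Vale.Agent.P194

open Equiv Function

/-- closed forms are exact -/
def Pl {D : Type} (φ α : D → D) : Prop :=
  ∀ h : D → ℚ, (∀ d, h (φ (α d)) - h (α d) = h d - h (φ d)) →
    ∃ B : D → ℚ, (∀ d, B (φ d) = B (α d)) ∧ ∀ d, B (φ d) - B d = h (φ d) - h d

variable {D : Type}

theorem Pl_E {φ α φ' α' : D → D} {d d' : D} (h1 : α d = d') (h2 : α d' = d)
    (h3 : φ' d = φ d') (h4 : φ' d' = φ d) (h5 : α' d = d) (h6 : α' d' = d')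
    (h7 : ∀ e, e ≠ d → e ≠ d' → φ' e = φ e ∧ α' e = α e ∧ α e ≠ d ∧ α e ≠ d')
    (H : Pl φ α) : Pl φ' α' := by
  intro h hh
  have a1 := hh d
  have a2 := hh d'
  rw [h5, h3] at a1
  rw [h6, h4] at a2
  obtain ⟨B, hB1, hB2⟩ := H h (by
    intro e
    by_cases he : e = d
    · subst he; rw [h1]; linarith
    by_cases he' : e = d'
    · subst he'; rw [h2]; linarith
    obtain ⟨b1, b2, b3, b4⟩ := h7 e he he'
    have := hh e
    rw [b2, (h7 _ b3 b4).1, b1] at this
    exact this)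
  refine ⟨B, fun e => ?_, fun e => ?_⟩
  · by_cases he : e = d
    · subst he; rw [h3, h5, hB1, h2]
    by_cases he' : e = d'
    · subst he'; rw [h4, h6, hB1, h1]
    obtain ⟨b1, b2, b3, b4⟩ := h7 e he he'
    rw [b1, b2, hB1]
  · by_cases he : e = d
    · subst he; rw [h3, hB1, h2]; linarith
    by_cases he' : e = d'
    · subst he'; rw [h4, hB1, h1]; linarith
    obtain ⟨b1, b2, b3, b4⟩ := h7 e he he'
    rw [b1, hB2]

theorem Pl_spur {φ α α' : D → D} {d d' : D} (h1 : α d = d') (h2 : α d' = d)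
    (h5 : α' d = d) (h6 : α' d' = d')
    (h7 : ∀ e, e ≠ d → e ≠ d' → α' e = α e)
    (H : Pl φ α) : Pl φ α' := by
  intro h hh
  have a1 := hh d
  have a2 := hh d'
  rw [h5] at a1
  rw [h6] at a2
  obtain ⟨B, hB1, hB2⟩ := H h (by
    intro e
    by_cases he : e = d
    · subst he; rw [h1]; linarith
    by_cases he' : e = d'
    · subst he'; rw [h2]; linarith
    have := hh e
    rw [h7 e he he'] at this
    exact this)
  refine ⟨B, fun e => ?_, hB2⟩
  by_cases he : e = d
  · subst he; rw [h5]; have := hB2 e; linarith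
  by_cases he' : e = d'
  · subst he'; rw [h6]; have := hB2 e; linarith
  rw [h7 e he he', hB1]

theorem Pl_F [DecidableEq D] {φ α α' : D → D} {d d' a a' : D} (hφ : Injective φ)
    (h0 : φ d = d') (h1 : α d = a) (h2 : α d' = a') (h3 : α a = d) (h4 : α a' = d')
    (n1 : d ≠ d') (n2 : a ≠ d) (n3 : a ≠ d') (n4 : a' ≠ d) (n5 : a' ≠ d')
    (h5 : α' d = d) (h6 : α' d' = d') (h7 : α' a = a') (h8 : α' a' = a)
    (h9 : ∀ e, e ≠ d → e ≠ d' → e ≠ a → e ≠ a' → α' e = α e ∧ α e ≠ d ∧ α e ≠ d')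
    (H : Pl φ α) : Pl φ α' := by
  intro h hh
  have a1 := hh d
  have a2 := hh d'
  have a3 := hh a
  rw [h5, h0] at a1
  rw [h6] at a2
  rw [h7] at a3
  have hne : ∀ e, e ≠ d → φ e ≠ d' := fun e he hc => he (hφ (hc.trans h0.symm))
  set h₁ : D → ℚ := update h d' (h d - (h (φ a) - h a)) with hh₁
  have u0 : h₁ d' = h d - (h (φ a) - h a) := by simp [hh₁]
  have u1 : ∀ e, e ≠ d' → h₁ e = h e := fun e he => by simp [hh₁, he]
  obtain ⟨B, hB1, hB2⟩ := H h₁ (by
    intro e
    by_cases he : e = d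
    · subst he; rw [h1, h0, u0, u1 _ (hne _ n2), u1 _ n3, u1 _ n1]; linarith
    by_cases he' : e = d'
    · subst he'; rw [h2, u0, u1 _ (hne _ n4), u1 _ n5, u1 _ (hne _ n1.symm)]; linarith
    by_cases ha : e = a
    · subst ha; rw [h3, h0, u0, u1 _ (hne _ n2), u1 _ n3, u1 _ n1]; linarith
    by_cases ha' : e = a'
    · subst ha'; rw [h4, u0, u1 _ (hne _ n4), u1 _ n5, u1 _ (hne _ n1.symm)]; linarith
    obtain ⟨b1, b2, b3⟩ := h9 e he he' ha ha'
    have := hh e
    rw [b1] at this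
    rw [u1 _ (hne _ b2), u1 _ b3, u1 _ he', u1 _ (hne _ he)]
    exact this)
  set B₁ : D → ℚ := update B d' (B d) with hB₁
  have v0 : B₁ d' = B d := by simp [hB₁]
  have v1 : ∀ e, e ≠ d' → B₁ e = B e := fun e he => by simp [hB₁, he]
  have c1 := hB2 d
  have c2 := hB2 d'
  rw [h0, u0, u1 _ n1] at c1
  rw [u0, u1 _ (hne _ n1.symm)] at c2
  have c3 := hB1 d
  have c4 := hB1 d'
  have c5 := hB1 a
  have c6 := hB1 a'
  rw [h0, h1] at c3
  rw [h2] at c4
  rw [h3] at c5
  rw [h4] at c6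
  refine ⟨B₁, fun e => ?_, fun e => ?_⟩
  · by_cases he : e = d
    · subst he; rw [h0, h5, v0, v1 _ n1]
    by_cases he' : e = d'
    · subst he'; rw [h6, v0, v1 _ (hne _ n1.symm)]; linarith
    by_cases ha : e = a
    · subst ha; rw [h7, v1 _ (hne _ n2), v1 _ n5]; linarith
    by_cases ha' : e = a'
    · subst ha'; rw [h8, v1 _ (hne _ n4), v1 _ n3]; linarith
    obtain ⟨b1, b2, b3⟩ := h9 e he he' ha ha'
    rw [b1, v1 _ (hne _ he), v1 _ b3, hB1]
  · by_cases he : e = d
    · subst he; rw [h0, v0, v1 _ n1]; linarith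
    by_cases he' : e = d'
    · subst he'; rw [v0, v1 _ (hne _ n1.symm)]; linarith
    rw [v1 _ (hne _ he), v1 _ he', hB2, u1 _ (hne _ he), u1 _ he']

/-- moving a dummy `s` forward past `e = φ s` -/
theorem Pl_move [DecidableEq D] {φ φ' α : D → D} {s e a : D} (hφ : Injective φ)
    (hs : α s = s) (hα : ∀ x, x ≠ s → α x ≠ s)
    (h0 : φ s = e) (h1 : φ a = s) (n1 : e ≠ s) (n2 : a ≠ e)
    (h2 : φ' a = e) (h3 : φ' e = s) (h4 : φ' s = φ e)
    (h5 : ∀ x, x ≠ a → x ≠ e → x ≠ s → φ' x = φ x)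
    (H : Pl φ α) : Pl φ' α := by
  intro h hh
  have n3 : a ≠ s := by rintro rfl; exact n1 (h0.symm.trans h1)
  have hne : ∀ x, x ≠ a → φ x ≠ s := fun x hx hc => hx (hφ (hc.trans h1.symm))
  have a1 := hh s
  rw [hs, h4] at a1
  set h₁ : D → ℚ := update h s (h e) with hh₁
  have u0 : h₁ s = h e := by simp [hh₁]
  have u1 : ∀ x, x ≠ s → h₁ x = h x := fun x hx => by simp [hh₁, hx]
  have key : ∀ x, h₁ (φ x) - h₁ x = h (φ' x) - h x := by
    intro x
    by_cases c1 : x = a
    · subst c1; rw [h1, h2, u0, u1 _ n3]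
    by_cases c2 : x = e
    · subst c2; rw [h3, u1 _ (hne _ c1), u1 _ n1]; linarith
    by_cases c3 : x = s
    · subst c3; rw [h0, h4, u0, u1 _ n1]; linarith
    rw [h5 x c1 c2 c3, u1 _ (hne _ c1), u1 _ c3]
  obtain ⟨B, hB1, hB2⟩ := H h₁ (by
    intro x
    have := key x
    have := key (α x)
    have := hh x
    linarith)
  set B₁ : D → ℚ := update B s (B (φ e)) with hB₁
  have v0 : B₁ s = B (φ e) := by simp [hB₁]
  have v1 : ∀ x, x ≠ s → B₁ x = B x := fun x hx => by simp [hB₁, hx]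
  have c1 := hB1 s
  rw [hs, h0] at c1
  have c2 := hB1 a
  rw [h1] at c2
  refine ⟨B₁, fun x => ?_, fun x => ?_⟩
  · by_cases c1 : x = a
    · subst c1; rw [h2, v1 _ n1, v1 _ (hα _ n3)]; linarith
    by_cases c2 : x = e
    · subst c2; rw [h3, v0, v1 _ (hα _ n1), hB1]
    by_cases c3 : x = s
    · subst c3; rw [h4, hs, v0, v1 _ (hne _ (Ne.symm n2))]
    rw [h5 x c1 c2 c3, v1 _ (hne _ c1), v1 _ (hα _ c3), hB1]
  · rw [← key, ← hB2]
    by_cases c1 : x = a
    · subst c1; rw [h2, h1, v1 _ n1, v1 _ n3]; linarith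
    by_cases c2 : x = e
    · subst c2; rw [h3, v0, v1 _ n1]
    by_cases c3 : x = s
    · subst c3; rw [h4, h0, v0, v1 _ (hne _ (Ne.symm n2))]; linarith
    rw [h5 x c1 c2 c3, v1 _ (hne _ c1), v1 _ c3]

/-- deleting a dummy -/
theorem Pl_K [DecidableEq D] {φ α : D → D} {d : D} {φ' α' : {e // e ≠ d} → {e // e ≠ d}}
    (hd : α d = d) (hα : ∀ e, (α' e).1 = α e.1)
    (hφ : ∀ e, (φ' e).1 = if φ e.1 = d then φ d else φ e.1)
    (H : Pl φ α) : Pl φ' α' := by
  intro h hh
  set g : D → ℚ := fun e => if he : e = d then 0 else h ⟨e, he⟩ with hg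
  have g1 : ∀ e : {e // e ≠ d}, g e.1 = h e := fun e => by simp [hg, e.2]
  set h₁ : D → ℚ := update g d (g (φ d)) with hh₁
  have u0 : h₁ d = g (φ d) := by simp [hh₁]
  have u1 : ∀ x, x ≠ d → h₁ x = g x := fun x hx => by simp [hh₁, hx]
  have u2 : h₁ (φ d) = h₁ d := by
    by_cases c : φ d = d
    · rw [c]
    · rw [u0, u1 _ c]
  have key : ∀ x : {e // e ≠ d}, h₁ (φ x.1) - h₁ x.1 = h (φ' x) - h x := by
    intro x
    rw [u1 _ x.2, g1, ← g1 (φ' x), hφ]
    by_cases c : φ x.1 = d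
    · rw [if_pos c, c, u0]
    · rw [if_neg c, u1 _ c]
  obtain ⟨B, hB1, hB2⟩ := H h₁ (by
    intro x
    by_cases c : x = d
    · subst c; rw [hd, u2]
    have := key ⟨x, c⟩
    have h2 := key (α' ⟨x, c⟩)
    rw [hα] at h2
    have := hh ⟨x, c⟩
    dsimp only at *
    linarith)
  have c1 := hB1 d
  rw [hd] at c1
  have k2 : ∀ x : {e // e ≠ d}, B (φ' x).1 = B (φ x.1) := by
    intro x
    rw [hφ]
    by_cases c : φ x.1 = d
    · rw [if_pos c, c, c1]
    · rw [if_neg c]
  refine ⟨fun x => B x.1, fun x => ?_, fun x => ?_⟩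
  · dsimp only; rw [k2, hα, hB1]
  · dsimp only; rw [k2, hB2, key]

theorem Pl_join {D₂ : Type} [Fintype D₂] [DecidableEq D₂] {φ α : D → D} {φ₂ α₂ : D₂ → D₂}
    {φ' α' : D ⊕ D₂ → D ⊕ D₂} {a : D} {b : D₂}
    (hb : Bijective φ₂) (hb' : Bijective α₂) (ha : α a = a)
    (h1 : ∀ x, α' (.inl x) = .inl (α x)) (h2 : ∀ x, α' (.inr x) = .inr (α₂ x))
    (h3 : φ' (.inl a) = .inr (φ₂ b)) (h4 : φ' (.inr b) = .inl (φ a))
    (h5 : ∀ x, x ≠ a → φ' (.inl x) = .inl (φ x)) (h6 : ∀ x, x ≠ b → φ' (.inr x) = .inr (φ₂ x))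
    (H : Pl φ α) (H₂ : Pl φ₂ α₂) : Pl φ' α' := by
  intro h hh
  have a1 := hh (.inl a)
  rw [h1, ha, h3] at a1
  have s1 : ∑ x : D₂, (h (φ' (.inr x)) - h (.inr x)) = 0 := by
    have e1 : ∑ x : D₂, (h (φ' (.inr (α₂ x))) - h (.inr (α₂ x))) =
        ∑ x : D₂, (h (φ' (.inr x)) - h (.inr x)) :=
      hb'.sum_comp (fun x => h (φ' (.inr x)) - h (.inr x))
    have e2 : ∑ x : D₂, (h (φ' (.inr (α₂ x))) - h (.inr (α₂ x))) =
        - ∑ x : D₂, (h (φ' (.inr x)) - h (.inr x)) := by
      rw [← Finset.sum_neg_distrib]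
      refine Finset.sum_congr rfl fun x _ => ?_
      have := hh (.inr x)
      rw [h2] at this
      linarith
    linarith
  have s2 : ∑ x : D₂, (h (.inr (φ₂ x)) - h (.inr x)) = 0 := by
    rw [Finset.sum_sub_distrib, hb.sum_comp (fun x => h (.inr x)), sub_self]
  have s3 : h (.inl (φ a)) = h (.inr (φ₂ b)) := by
    have : ∑ x : D₂, ((h (φ' (.inr x)) - h (.inr x)) - (h (.inr (φ₂ x)) - h (.inr x))) = 0 := by
      rw [Finset.sum_sub_distrib, s1, s2, sub_self]
    rw [Finset.sum_eq_single b] at this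
    · rw [h4] at this; linarith
    · intro x _ hx; rw [h6 x hx]; ring
    · simp
  have k1 : ∀ x, h (φ' (.inl x)) = h (.inl (φ x)) := by
    intro x
    by_cases c : x = a
    · subst c; rw [h3, s3]
    · rw [h5 x c]
  have k2 : ∀ x, h (φ' (.inr x)) = h (.inr (φ₂ x)) := by
    intro x
    by_cases c : x = b
    · subst c; rw [h4, s3]
    · rw [h6 x c]
  obtain ⟨B, hB1, hB2⟩ := H (fun x => h (.inl x)) (by
    intro x
    have := hh (.inl x)
    rw [h1, k1, k1] at this
    exact this)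
  obtain ⟨C, hC1, hC2⟩ := H₂ (fun x => h (.inr x)) (by
    intro x
    have := hh (.inr x)
    rw [h2, k2, k2] at this
    exact this)
  have c1 := hB1 a
  rw [ha] at c1
  set B' : D ⊕ D₂ → ℚ := Sum.elim B (fun x => C x + (B a - C (φ₂ b))) with hB'
  have m1 : ∀ x, B' (φ' (.inl x)) = B (φ x) := by
    intro x
    by_cases c : x = a
    · subst c; rw [h3, c1]; simp [hB']
    · rw [h5 x c]; simp [hB']
  have m2 : ∀ x, B' (φ' (.inr x)) = C (φ₂ x) + (B a - C (φ₂ b)) := by
    intro x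
    by_cases c : x = b
    · subst c; rw [h4]; simp [hB', c1]
    · rw [h6 x c]; simp [hB']
  refine ⟨B', fun x => ?_, fun x => ?_⟩
  · rcases x with x | x
    · rw [m1, h1, hB1]; simp [hB']
    · rw [m2, h2, hC1]; simp [hB']
  · rcases x with x | x
    · rw [m1, k1, ← hB2]; simp [hB']
    · rw [m2, k2, ← hC2]; simp [hB']

/-- invariant functions -/
def Inv (π : D → D) : Submodule ℚ (D → ℚ) where
  carrier := {h | ∀ d, h (π d) = h d}
  add_mem' := fun {a b} ha hb d => by simp [ha d, hb d]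
  zero_mem' := fun _ => rfl
  smul_mem' := fun c a ha d => by simp [ha d]

/-- the difference operator -/
def dif (π : D → D) : (D → ℚ) →ₗ[ℚ] (D → ℚ) where
  toFun h := fun d => h (π d) - h d
  map_add' a b := by ext d; simp; ring
  map_smul' c a := by ext d; simp; ring

theorem ker_dif (π : D → D) : LinearMap.ker (dif π) = Inv π := by
  ext h
  simp only [LinearMap.mem_ker, dif, LinearMap.coe_mk, AddHom.coe_mk, Inv, funext_iff,
    Pi.zero_apply, sub_eq_zero]
  rfl

theorem euler [Fintype D] [Nonempty D] {φ α : D → D} (hφ : Bijective φ) (hα : Involutive α)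
    (H : Pl φ α) :
    Fintype.card D + 2 ≤ Module.finrank ℚ (Inv φ) + Module.finrank ℚ (Inv (φ ∘ α)) +
      Module.finrank ℚ (Inv α) := by
  classical
  have r1 := LinearMap.finrank_range_add_finrank_ker (dif φ)
  have r2 := LinearMap.finrank_range_add_finrank_ker (dif α)
  rw [ker_dif, Module.finrank_fintype_fun_eq_card] at r1 r2
  set P := LinearMap.range (dif φ)
  set Q := LinearMap.range (dif α)
  let sm : (D → ℚ) →ₗ[ℚ] ℚ := ∑ d, LinearMap.proj d
  have hsm : ∀ h, sm h = ∑ d, h d := fun h => by simp [sm]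
  have r3 := LinearMap.finrank_range_add_finrank_ker sm
  have r4 : LinearMap.range sm = ⊤ := by
    rw [eq_top_iff]
    intro x _
    obtain ⟨d⟩ := ‹Nonempty D›
    exact ⟨Pi.single d x, by simp [hsm]⟩
  rw [r4, Module.finrank_fintype_fun_eq_card, finrank_top, Module.finrank_self] at r3
  have r5 : P ⊔ Q ≤ LinearMap.ker sm := by
    refine sup_le ?_ ?_
    · rintro _ ⟨h, rfl⟩
      rw [LinearMap.mem_ker, hsm]
      change ∑ d, (h (φ d) - h d) = 0
      rw [Finset.sum_sub_distrib, hφ.sum_comp h, sub_self]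
    · rintro _ ⟨h, rfl⟩
      rw [LinearMap.mem_ker, hsm]
      change ∑ d, (h (α d) - h d) = 0
      rw [Finset.sum_sub_distrib, hα.bijective.sum_comp h, sub_self]
  have r6 := Submodule.finrank_mono r5
  have r7 := Submodule.finrank_sup_add_finrank_inf_eq P Q
  let L := (dif φ).domRestrict (Inv (φ ∘ α))
  have r8 := LinearMap.finrank_range_add_finrank_ker L
  have r9 : P ⊓ Q ≤ LinearMap.range L := by
    rintro w ⟨⟨h, rfl⟩, ⟨k, hk⟩⟩
    obtain ⟨B, hB1, hB2⟩ := H h (by
      intro d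
      have e1 := congrFun hk d
      have e2 := congrFun hk (α d)
      simp only [dif, LinearMap.coe_mk, AddHom.coe_mk, hα d] at e1 e2
      linarith)
    refine ⟨⟨B, fun d => ?_⟩, ?_⟩
    · simp [hB1, hα d]
    · ext d; exact hB2 d
  have r10 := Submodule.finrank_mono r9
  have r11 : 0 < Module.finrank ℚ (LinearMap.ker L) := by
    refine (Module.finrank_pos_iff_exists_ne_zero (R := ℚ) (M := LinearMap.ker L)).2 ?_
    refine ⟨⟨⟨fun _ => 1, fun _ => rfl⟩, ?_⟩, ?_⟩
    · rw [LinearMap.mem_ker]; ext d; simp [L, dif]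
    · intro hc
      obtain ⟨d⟩ := ‹Nonempty D›
      have := congrFun (congrArg (fun x => x.1.1) hc) d
      simp at this
  omega

/-- the cycle of a dart -/
def orb [Fintype D] [DecidableEq D] (π : Perm D) (d : D) : Finset D :=
  Finset.univ.filter (fun e => π.SameCycle d e)

theorem weight [Fintype D] [DecidableEq D] (π : Perm D) (ω : D → ℚ) (c : ℚ) (hc : 0 ≤ c)
    (H : ∀ d, c ≤ ∑ e ∈ orb π d, ω e) : c * Module.finrank ℚ (Inv π) ≤ ∑ e, ω e := by
  classical
  let st : Setoid D := Perm.SameCycle.setoid π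
  let L : Inv π →ₗ[ℚ] (Quotient st → ℚ) :=
    { toFun := fun h q => h.1 q.out
      map_add' := fun a b => rfl
      map_smul' := fun c a => rfl }
  have hinv : ∀ h : Inv π, ∀ x y, π.SameCycle x y → h.1 x = h.1 y := by
    intro h x y hxy
    obtain ⟨n, rfl⟩ := hxy.exists_nat_pow_eq
    clear hxy
    induction n with
    | zero => rfl
    | succ n ih => rw [pow_succ', Perm.mul_apply, h.2, ← ih]
  have hL : Injective L := by
    intro a b hab
    ext d
    have e := congrFun hab (Quotient.mk st d)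
    have e2 : π.SameCycle (Quotient.mk st d).out d := Quotient.mk_out (s := st) d
    rw [← hinv a _ _ e2, ← hinv b _ _ e2]
    exact e
  have r := LinearMap.finrank_le_finrank_of_injective hL
  rw [Module.finrank_fintype_fun_eq_card] at r
  rw [← Finset.sum_fiberwise Finset.univ (Quotient.mk st) ω]
  calc c * (Module.finrank ℚ (Inv π) : ℚ) ≤ c * (Fintype.card (Quotient st) : ℚ) := by
        gcongr
    _ = ∑ _q : Quotient st, c := by simp [mul_comm]
    _ ≤ _ := by
        refine Finset.sum_le_sum fun q _ => ?_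
        refine (H q.out).trans (le_of_eq ?_)
        refine Finset.sum_congr ?_ fun _ _ => rfl
        ext e
        simp only [orb, Finset.mem_filter, Finset.mem_univ, true_and]
        constructor
        · intro h
          rw [← Quotient.out_eq q]
          exact (Quotient.sound (s := st) h).symm
        · rintro rfl
          exact Quotient.mk_out (s := st) e

end Vale.Agent.P194
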