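import Vale.Agent.P194.Fill

/-! Graphical small cancellation: components embed. -/

namespace Vale.Agent.P194

open Equiv Function

section orbits
variable {D : Type} [Fintype D] [DecidableEq D] (π : Perm D)

theorem mem_orb {d e : D} : e ∈ orb π d ↔ π.SameCycle d e := by simp [orb]

theorem self_mem_orb (d : D) : d ∈ orb π d := (mem_orb π).2 (Perm.SameCycle.refl _ _)

theorem apply_mem_orb {d e : D} : π e ∈ orb π d ↔ e ∈ orb π d := by
  simp [mem_orb]

theorem pow_mem_orb {d e : D} (n : ℕ) : (π ^ n) e ∈ orb π d ↔ e ∈ orb π d := by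
  simp [mem_orb]

theorem orb_eq {d e : D} (h : e ∈ orb π d) : orb π e = orb π d := by
  ext x
  rw [mem_orb] at h
  simp only [mem_orb]
  exact ⟨h.trans, h.symm.trans⟩

theorem orb_sum_pow (d : D) (f : D → ℚ) (n : ℕ) :
    ∑ e ∈ orb π d, f ((π ^ n) e) = ∑ e ∈ orb π d, f e :=
  Finset.sum_equiv (π ^ n) (fun _ => (pow_mem_orb π n).symm) (fun _ _ => rfl)

theorem orb_sum_apply (d : D) (f : D → ℚ) :
    ∑ e ∈ orb π d, f (π e) = ∑ e ∈ orb π d, f e := by
  simpa using orb_sum_pow π d f 1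

theorem orb_window (d : D) (f w : D → ℚ) (L : ℕ) (hw : ∀ e ∈ orb π d, 0 ≤ w e)
    (h : ∀ e ∈ orb π d, f e ≤ 0 ∨ ∃ i < L, f e ≤ w ((π ^ (i + 1)) e)) :
    ∑ e ∈ orb π d, f e ≤ L * ∑ e ∈ orb π d, w e := by
  calc ∑ e ∈ orb π d, f e ≤ ∑ e ∈ orb π d, ∑ i ∈ Finset.range L, w ((π ^ (i + 1)) e) := by
        refine Finset.sum_le_sum fun e he => ?_
        have hn : ∀ i ∈ Finset.range L, 0 ≤ w ((π ^ (i + 1)) e) :=
          fun i _ => hw _ ((pow_mem_orb π _).2 he)
        rcases h e he with h | ⟨i, hi, h⟩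
        · exact h.trans (Finset.sum_nonneg hn)
        · exact h.trans (Finset.single_le_sum hn (Finset.mem_range.2 hi))
    _ = _ := by
        rw [Finset.sum_comm]
        simp only [orb_sum_pow]
        simp

theorem orb_card (d : D) (g : ℕ) (h : ∀ n, 0 < n → (π ^ n) d = d → g ≤ n) :
    g ≤ (orb π d).card := by
  have hp : d ∈ periodicPts π := π.injective.mem_periodicPts d
  have h1 := h _ (minimalPeriod_pos_of_mem_periodicPts hp) (by
    have := iterate_minimalPeriod (f := π) (x := d)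
    rwa [← Perm.coe_pow] at this)
  refine h1.trans ?_
  rw [← Finset.card_range (minimalPeriod π d)]
  refine Finset.card_le_card_of_injOn (fun i => π^[i] d) (fun i _ => ?_) ?_
  · have := (pow_mem_orb π i).2 (self_mem_orb π d)
    rw [Perm.coe_pow] at this
    exact this
  · rw [Finset.coe_range]; exact iterate_injOn_Iio_minimalPeriod

theorem orb_ge1 {ω : D → ℚ} {d a : D} (hω : ∀ e ∈ orb π d, 0 ≤ ω e) (ha : a ∈ orb π d) :
    ω a ≤ ∑ e ∈ orb π d, ω e := Finset.single_le_sum hω ha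

theorem orb_ge2 {ω : D → ℚ} {d a b : D} (hω : ∀ e ∈ orb π d, 0 ≤ ω e) (ha : a ∈ orb π d)
    (hb : b ∈ orb π d) (hab : a ≠ b) : ω a + ω b ≤ ∑ e ∈ orb π d, ω e := by
  rw [← Finset.sum_pair hab]
  refine Finset.sum_le_sum_of_subset_of_nonneg ?_ (fun e he _ => hω e he)
  intro e he
  simp only [Finset.mem_insert, Finset.mem_singleton] at he
  rcases he with rfl | rfl <;> assumption

theorem orb_ge3 {ω : D → ℚ} {d a b c : D} (hω : ∀ e ∈ orb π d, 0 ≤ ω e) (ha : a ∈ orb π d)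
    (hb : b ∈ orb π d) (hc : c ∈ orb π d) (hab : a ≠ b) (hac : a ≠ c) (hbc : b ≠ c) :
    ω a + ω b + ω c ≤ ∑ e ∈ orb π d, ω e := by
  have : ∑ e ∈ ({a, b, c} : Finset D), ω e = ω a + ω b + ω c := by
    rw [Finset.sum_insert (by simp [hab, hac]), Finset.sum_pair hbc, add_assoc]
  rw [← this]
  refine Finset.sum_le_sum_of_subset_of_nonneg ?_ (fun e he _ => hω e he)
  intro e he
  simp only [Finset.mem_insert, Finset.mem_singleton] at he
  rcases he with rfl | rfl | rfl <;> assumption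

end orbits

/-- small cancellation hypotheses on a labelled graph -/
structure SCHyp {S V : Type} (Step : V → S × Bool → V → Prop) (g : ℕ) : Prop where
  sym : ∀ v a v', Step v a v' → Step v' (linv a) v
  det : ∀ v a v' v'', Step v a v' → Step v a v'' → v' = v''
  surj : ∀ a, ∃ v v', Step v a v'
  piece : ∀ (p q : ℕ → V) (ℓ : ℕ → S × Bool), (∀ i < 7, Step (p i) (ℓ i) (p (i + 1))) →
    (∀ i < 7, Step (q i) (ℓ i) (q (i + 1))) → (∀ i < 6, ℓ (i + 1) ≠ linv (ℓ i)) → p 0 = q 0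
  girth : ∀ (p : ℕ → V) (ℓ : ℕ → S × Bool) (n : ℕ), 0 < n →
    (∀ i, Step (p i) (ℓ i) (p (i + 1))) → (∀ i, ℓ (i + 1) ≠ linv (ℓ i)) →
    (∀ i, p (i + n) = p i) → ℓ n = ℓ 0 → g ≤ n

variable {S V W G : Type} [Group G] {Step : V → S × Bool → V → Prop}
  {St : W → S × Bool → W → Prop} {γ : S × Bool → G} {x y : W} {g : ℕ}

/-- the vertex permutation -/
def Dg.σ (Δ : Dg St γ x y) : Perm Δ.D := Δ.φ * Δ.invol.toPerm

theorem Dg.σ_apply (Δ : Dg St γ x y) (d : Δ.D) : Δ.σ d = Δ.φ (Δ.α d) := rfl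

theorem Dg.count (Δ : Dg St γ x y) (h : Δ.Red) (ω₁ ω₂ : Δ.D → ℚ) (c : ℚ) (hc : 0 ≤ c)
    (h1 : ∀ d, c ≤ ∑ e ∈ orb Δ.σ d, ω₁ e) (h2 : ∀ d, c ≤ ∑ e ∈ orb Δ.φ d, ω₂ e) :
    c * (Fintype.card Δ.D + 3) ≤ 2 * ∑ e, (ω₁ e + ω₂ e) := by
  haveI : Nonempty Δ.D := ⟨Δ.star⟩
  have e := euler Δ.φ.bijective Δ.invol Δ.pl
  have w1 := weight Δ.σ ω₁ c hc h1
  have w2 := weight Δ.φ ω₂ c hc h2
  have w3 := weight Δ.invol.toPerm (fun d => 1 + if d = Δ.star then 1 else 0) 2 (by norm_num) (by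
    intro d
    have hn : ∀ e ∈ orb Δ.invol.toPerm d, (0 : ℚ) ≤ 1 + if e = Δ.star then 1 else 0 := by
      intro e _; split_ifs <;> norm_num
    by_cases c : d = Δ.star
    · refine le_trans ?_ (orb_ge1 _ hn (self_mem_orb _ d))
      simp [c]; norm_num
    · refine le_trans ?_ (orb_ge2 _ hn (self_mem_orb _ d)
        ((apply_mem_orb _).2 (self_mem_orb _ d)) (h.nodum d c).symm)
      split_ifs <;> norm_num)
  rw [Finset.sum_add_distrib] at w3 ⊢
  simp only [Finset.sum_const, Finset.card_univ, nsmul_eq_mul, mul_one, Finset.sum_ite_eq',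
    Finset.mem_univ, if_true] at w3
  have e' : (Fintype.card Δ.D : ℚ) + 2 ≤ Module.finrank ℚ (Inv Δ.φ) +
      Module.finrank ℚ (Inv Δ.σ) + Module.finrank ℚ (Inv Δ.invol.toPerm) := by
    exact_mod_cast e
  nlinarith

/-- a dart that is read in the graph -/
def Dg.J (Δ : Dg St γ x y) (Step : V → S × Bool → V → Prop) (ι : V → W) (π : Δ.D → V)
    (d : Δ.D) : Prop :=
  d ≠ Δ.star ∧ Step (π d) (Δ.lab d) (π (Δ.φ d)) ∧ Δ.pos d = ι (π d) ∧
    Δ.pos (Δ.φ d) = ι (π (Δ.φ d))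

section local_lemmas
variable (H : SCHyp Step g) {Δ : Dg St γ x y} (h : Δ.Red) {ι : V → W} {π : Δ.D → V}
include H h

theorem J_nb {d : Δ.D} (h1 : Δ.J Step ι π d) (h2 : Δ.J Step ι π (Δ.φ d)) :
    Δ.lab (Δ.φ d) ≠ linv (Δ.lab d) := by
  intro hc
  refine h.noF d h1.1 h2.1 hc ?_
  have := h2.2.1
  rw [hc] at this
  rw [h2.2.2.2, h1.2.2.1, H.det _ _ _ _ this (H.sym _ _ _ h1.2.1)]

theorem J_card {d : Δ.D} (h1 : ∀ e ∈ orb Δ.φ d, Δ.J Step ι π e) : g ≤ (orb Δ.φ d).card := by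
  refine orb_card _ _ _ fun n hn hd => ?_
  have hm : ∀ i, Δ.J Step ι π ((Δ.φ ^ i) d) := fun i =>
    h1 _ ((pow_mem_orb _ i).2 (self_mem_orb _ d))
  refine H.girth (fun i => π ((Δ.φ ^ i) d)) (fun i => Δ.lab ((Δ.φ ^ i) d)) n hn (fun i => ?_)
    (fun i => ?_) (fun i => by simp [pow_add, hd]) (by simp [hd])
  · simpa [pow_succ'] using (hm i).2.1
  · have := hm (i + 1)
    rw [pow_succ', Perm.mul_apply] at this ⊢
    exact J_nb H h (hm i) this

theorem J_run {d : Δ.D} (h1 : ∀ i < 7, Δ.J Step ι π ((Δ.φ ^ i) d))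
    (h2 : ∀ i < 7, Δ.J Step ι π (Δ.α ((Δ.φ ^ i) d)))
    (h3 : ∀ i < 6, Δ.φ (Δ.α ((Δ.φ ^ (i + 1)) d)) = Δ.α ((Δ.φ ^ i) d)) : False := by
  have k : ∀ e, Δ.J Step ι π e → Δ.J Step ι π (Δ.α e) →
      Step (π (Δ.φ (Δ.α e))) (Δ.lab e) (π (Δ.α e)) := by
    intro e he he'
    have := H.sym _ _ _ he'.2.1
    rwa [Δ.hlab e (h.nodum e he.1), linv_linv] at this
  have := H.piece (fun i => π ((Δ.φ ^ i) d))
    (fun i => if i < 7 then π (Δ.φ (Δ.α ((Δ.φ ^ i) d))) else π (Δ.α ((Δ.φ ^ 6) d)))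
    (fun i => Δ.lab ((Δ.φ ^ i) d)) (fun i hi => by simpa [pow_succ'] using (h1 i hi).2.1)
    (fun i hi => by
      have := k _ (h1 i hi) (h2 i hi)
      rw [if_pos hi]
      split_ifs with c
      · rw [h3 i (by omega)]; exact this
      · obtain rfl : i = 6 := by omega
        exact this)
    (fun i hi => by
      have := h1 (i + 1) (by omega)
      rw [pow_succ', Perm.mul_apply] at this ⊢
      exact J_nb H h (h1 i (by omega)) this)
  simp only [pow_zero, Perm.one_apply, Nat.ofNat_pos, if_true] at this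
  have a1 : Δ.J Step ι π d := h1 0 (by omega)
  have a2 : Δ.J Step ι π (Δ.α d) := h2 0 (by omega)
  refine h.noE d a1.1 ?_ ?_
  · have b := k d a1 a2
    rw [← this] at b
    rw [a1.2.2.2, a2.2.2.1, H.det _ _ _ _ a1.2.1 b]
  · rw [a2.2.2.2, a1.2.2.1, this]

end local_lemmas

theorem Dg.σσ (Δ : Dg St γ x y) {e : Δ.D} (h : Δ.σ (Δ.σ (Δ.φ e)) = Δ.φ e) :
    Δ.φ (Δ.α (Δ.φ e)) = Δ.α e := by
  rw [Δ.σ_apply] at h
  have := Δ.φ.injective h
  rw [← Δ.σ_apply, ← Δ.invol (Δ.σ (Δ.φ e)), this]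

theorem red_eq (H : SCHyp Step g) (hg : 36 ≤ g) {x y : V} (Δ : Dg Step γ x y) (h : Δ.Red) :
    x = y := by
  by_contra hxy
  have n1 : Δ.φ Δ.star ≠ Δ.star := fun hc => hxy (by rw [← Δ.hx, hc, Δ.hy])
  have hJ : ∀ d, d ≠ Δ.star → Δ.J Step id Δ.pos d := fun d hd =>
    ⟨hd, Δ.hstep d (h.nodum d hd), rfl, rfl⟩
  have s0 : Δ.σ Δ.star = Δ.φ Δ.star := by rw [Δ.σ_apply, Δ.hstar]
  let ω₁ : Δ.D → ℚ := fun d => if d = Δ.star then 6 else if d = Δ.φ Δ.star then 0 else
    if Δ.σ (Δ.σ d) = d then 3 else 2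
  let ω₂ : Δ.D → ℚ := fun d => if d = Δ.star then 6 else if d = Δ.φ Δ.star then 0 else
    if Δ.σ (Δ.σ d) = d then 0 else 1
  have p1 : ∀ e, 0 ≤ ω₁ e := fun e => by simp only [ω₁]; split_ifs <;> norm_num
  have p2 : ∀ e, 0 ≤ ω₂ e := fun e => by simp only [ω₂]; split_ifs <;> norm_num
  have := Δ.count h ω₁ ω₂ 6 (by norm_num) ?_ ?_
  · have e : ∀ e, ω₁ e + ω₂ e =
        3 + (if e = Δ.star then 9 else 0) - (if e = Δ.φ Δ.star then 3 else 0) := by
      intro e
      simp only [ω₁, ω₂]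
      by_cases c : e = Δ.star
      · simp [c, n1.symm]; norm_num
      · simp only [if_neg c]; split_ifs <;> norm_num
    simp only [e, Finset.sum_sub_distrib, Finset.sum_add_distrib, Finset.sum_const,
      Finset.card_univ, nsmul_eq_mul, Finset.sum_ite_eq', Finset.mem_univ, if_true] at this
    linarith
  · intro d
    by_cases c : Δ.star ∈ orb Δ.σ d
    · refine le_trans ?_ (orb_ge1 _ (fun e _ => p1 e) c)
      simp [ω₁]
    have c' : Δ.φ Δ.star ∉ orb Δ.σ d := by rwa [← s0, apply_mem_orb]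
    have q : ∀ e ∈ orb Δ.σ d, ω₁ e = if Δ.σ (Δ.σ e) = e then 3 else 2 := by
      intro e he
      have a1 : e ≠ Δ.star := by rintro rfl; exact c he
      have a2 : e ≠ Δ.φ Δ.star := by rintro rfl; exact c' he
      simp only [ω₁, if_neg a1, if_neg a2]
    have m0 := self_mem_orb Δ.σ d
    have m1 := (apply_mem_orb Δ.σ).2 m0
    have m2 := (apply_mem_orb Δ.σ).2 m1
    have a1 : d ≠ Δ.star := by rintro rfl; exact c m0
    have b1 : d ≠ Δ.σ d := by
      intro hc
      have := J_nb H h (hJ _ (Δ.alpha_ne a1)) (hJ _ (by rw [← Δ.σ_apply, ← hc]; exact a1))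
      rw [← Δ.σ_apply, ← hc, Δ.hlab d (h.nodum d a1), linv_linv] at this
      exact this rfl
    by_cases b2 : Δ.σ (Δ.σ d) = d
    · refine le_trans ?_ (orb_ge2 _ (fun e _ => p1 e) m0 m1 b1)
      rw [q _ m0, q _ m1, b2, if_pos rfl, if_pos rfl]; norm_num
    · refine le_trans ?_ (orb_ge3 _ (fun e _ => p1 e) m0 m1 m2 b1 (Ne.symm b2)
        (fun hc => b1 (Δ.σ.injective hc)))
      rw [q _ m0, q _ m1, q _ m2]; split_ifs <;> norm_num
  · intro d
    by_cases c : Δ.star ∈ orb Δ.φ d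
    · refine le_trans ?_ (orb_ge1 _ (fun e _ => p2 e) c)
      simp [ω₂]
    have c' : Δ.φ Δ.star ∉ orb Δ.φ d := by rwa [apply_mem_orb]
    have a1 : ∀ e ∈ orb Δ.φ d, e ≠ Δ.star := by rintro e he rfl; exact c he
    have a2 : ∀ e ∈ orb Δ.φ d, e ≠ Δ.φ Δ.star := by rintro e he rfl; exact c' he
    have k1 := J_card H h (fun e he => hJ e (a1 e he))
    have k2 := orb_window Δ.φ d (fun _ => 1) ω₂ 6 (fun e _ => p2 e) (by
      intro e he
      right
      by_contra hc
      push Not at hc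
      have m : ∀ i, (Δ.φ ^ i) e ∈ orb Δ.φ d := fun i => (pow_mem_orb _ i).2 he
      refine J_run H h (d := e) (fun i _ => hJ _ (a1 _ (m i)))
        (fun i _ => hJ _ (Δ.alpha_ne (a1 _ (m i)))) (fun i hi => ?_)
      have := hc i hi
      simp only [ω₂, if_neg (a1 _ (m _)), if_neg (a2 _ (m _))] at this
      split_ifs at this with b
      · rw [pow_succ', Perm.mul_apply] at b ⊢
        exact Δ.σσ b
      · exact absurd this (lt_irrefl _))
    simp only [Finset.sum_const, nsmul_eq_mul, mul_one] at k2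
    have : (36 : ℚ) ≤ (orb Δ.φ d).card := by exact_mod_cast hg.trans k1
    push_cast at k2
    linarith

theorem pos_ind {w : List (S × Bool)} {y : V ⊕ List (S × Bool)}
    {Δ : Dg (StepP Step) γ (.inr w) y} (h : Δ.Red)
    (Q : Δ.D → List (S × Bool) → Prop) (h0 : Q (Δ.φ Δ.star) w)
    (h1 : ∀ d l, d ≠ Δ.star → Q d (Δ.lab d :: l) → Q (Δ.φ d) l) :
    ∀ d l, Δ.pos d = .inr l → Q d l := by
  obtain ⟨M, hM⟩ := (Set.finite_range
    (fun d => Sum.elim (fun _ => 0) List.length (Δ.pos d))).bddAbove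
  have hM' : ∀ d l, Δ.pos d = .inr l → l.length ≤ M := fun d l hd => by
    have := hM ⟨d, rfl⟩
    simpa [hd] using this
  suffices ∀ n d l, Δ.pos d = .inr l → M - l.length = n → Q d l from
    fun d l hd => this _ d l hd rfl
  intro n
  induction n using Nat.strong_induction_on with
  | _ n ih =>
    intro d l hd hn
    obtain ⟨e, rfl⟩ := Δ.φ.surjective d
    by_cases c : e = Δ.star
    · subst c
      rw [Δ.hx] at hd
      obtain rfl := Sum.inr.inj hd
      exact h0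
    · have := Δ.hstep e (h.nodum e c)
      rw [hd] at this
      have e1 := this.to_inr
      have := hM' _ _ e1
      simp only [List.length_cons] at this
      exact h1 e l c (ih _ (by simp only [List.length_cons]; omega) e _ e1 rfl)

theorem Wk.unique (H : SCHyp Step g) {l : List (S × Bool)} {v' : V} :
    ∀ {v z : V}, Wk Step v l v' → Wk Step z l v' → v = z := by
  induction l with
  | nil => intro v z h1 h2; cases h1; cases h2; rfl
  | cons a l ih =>
    intro v z h1 h2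
    cases h1 with
    | cons s1 h1 =>
      cases h2 with
      | cons s2 h2 =>
        obtain rfl := ih h1 h2
        exact H.det _ _ _ _ (H.sym _ _ _ s1) (H.sym _ _ _ s2)

theorem wk_inj [Nonempty S] (H : SCHyp Step g) (hg : 36 ≤ g) {v v' : V} {u : List (S × Bool)}
    (hu : Wk Step v u v') (h1 : (u.map (gen Step)).prod = 1) : v = v' := by
  classical
  obtain ⟨Δ, hΔ⟩ := exists_red gen_linv (vanKampen H.sym H.surj h1)
  have hQ := pos_ind hΔ (fun _ l => ∃ z, Wk Step z l v') ⟨v, hu⟩ (by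
    rintro d l - ⟨z, hz⟩
    cases hz with
    | cons _ h => exact ⟨_, h⟩)
  let ρ : List (S × Bool) → V := fun l => if h : ∃ z, Wk Step z l v' then h.choose else v'
  have hρ : ∀ l z, Wk Step z l v' → ρ l = z := fun l z hz => by
    have h : ∃ z, Wk Step z l v' := ⟨z, hz⟩
    simp only [ρ, dif_pos h]
    exact Wk.unique H h.choose_spec hz
  let Δ' : Dg Step (gen Step) v v' :=
    { D := Δ.D
      φ := Δ.φ
      α := Δ.α
      invol := Δ.invol
      star := Δ.star
      hstar := Δ.hstar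
      pl := Δ.pl
      lab := Δ.lab
      pos := fun d => Sum.elim id ρ (Δ.pos d)
      el := Δ.el
      hlab := Δ.hlab
      hstep := by
        intro d hd
        have := Δ.hstep d hd
        rcases hp : Δ.pos d with z | l
        · rw [hp] at this
          obtain ⟨z', e1, e2⟩ := this.of_inl
          rw [e1]; exact e2
        · rw [hp] at this
          obtain ⟨l', e1, rfl⟩ := this.of_inr
          obtain ⟨z, hz⟩ := hQ d _ hp
          rw [e1]
          cases hz with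
          | cons s hz' =>
            simp only [Sum.elim_inr]
            rw [hρ _ _ hz', hρ _ _ (.cons s hz')]
            exact s
      hdum := fun d h1 h2 => absurd h1 (hΔ.nodum d h2)
      hx := by rw [Δ.hx]; exact hρ _ _ hu
      hy := by rw [Δ.hy]; exact hρ _ _ (.nil _)
      hel := Δ.hel
      hel2 := Δ.hel2 }
  obtain ⟨Δ'', h''⟩ := exists_red gen_linv ⟨Δ'⟩
  exact red_eq H hg Δ'' h''

theorem exists_dev [Nonempty S] (H : SCHyp Step g) (hg : 36 ≤ g) :
    ∃ f : V → Gp Step, (∀ v a v', Step v a v' → f v' = f v * gen Step a) ∧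
      ∀ v u v', Wk Step v u v' → f v = f v' → v = v' := by
  let st : Setoid V :=
    { r := fun v v' => ∃ u, Wk Step v u v'
      iseqv := ⟨fun v => ⟨[], .nil v⟩, fun ⟨u, h⟩ => ⟨_, h.rev H.sym⟩,
        fun ⟨u, h⟩ ⟨u', h'⟩ => ⟨_, h.append h'⟩⟩ }
  have hc : ∀ v, ∃ u, Wk Step (Quotient.mk st v).out u v := fun v => Quotient.mk_out (s := st) v
  choose c hc using hc
  have key : ∀ v u v', Wk Step v u v' →
      ((c v').map (gen Step)).prod = ((c v).map (gen Step)).prod * (u.map (gen Step)).prod := by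
    intro v u v' h
    have e : Quotient.mk st v = Quotient.mk st v' := Quotient.sound ⟨u, h⟩
    have h1 := hc v'
    rw [← e] at h1
    have := (((hc v).append h).append (h1.rev H.sym)).gen_prod
    rw [gen_prod, ← FreeGroup.mul_mk, ← FreeGroup.mul_mk, ← FreeGroup.inv_mk,
      QuotientGroup.mk_mul, QuotientGroup.mk_mul, QuotientGroup.mk_inv, mul_inv_eq_one] at this
    rw [gen_prod, gen_prod, gen_prod, this]
  refine ⟨fun v => ((c v).map (gen Step)).prod, fun v a v' h => ?_, fun v u v' h e => ?_⟩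
  · simpa using key v [a] v' (.cons h (.nil _))
  · have := key v u v' h
    dsimp only at e
    rw [← e] at this
    exact wk_inj H hg h (by simpa using this)

end Vale.Agent.P194
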